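import Vale.Agent.P208.Interfaces

/-!
Basic facts about the parameters, profiles and coordinates of the gadgets.
-/

noncomputable section

open Finset RealInnerProductSpace

namespace Vale.Agent.P208

variable {m : ℕ}

/-! ### Parameters -/

lemma Big.pos (h : Big m) : 0 < m := by unfold Big at h; omega

lemma hN_le_bN (h : Big m) : hN m ≤ bN m := Nat.pow_le_pow_right h.pos (by norm_num)

lemma hN_pos (h : Big m) : 0 < hN m := pow_pos h.pos _

lemma bN_pos (h : Big m) : 0 < bN m := pow_pos h.pos _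

lemma qN_pos (m : ℕ) : 0 < qN m := by unfold qN; omega

lemma qN_add (h : Big m) : qN m + hN m = bN m + 1 := by
  have := hN_le_bN h
  unfold qN; omega

lemma nN_eq (m : ℕ) : nN m = 2 * qN m + m := rfl

lemma nN_pos (m : ℕ) : 0 < nN m := by have := qN_pos m; unfold nN; omega

lemma nN_le (h : Big m) : nN m ≤ 3 * m ^ 6 := by
  have h1 := hN_pos h
  have h2 : m ≤ m ^ 6 := Nat.le_self_pow (by norm_num) m
  have := qN_add h
  unfold nN; unfold bN at this; omega

lemma nN_ge (h : Big m) : m ^ 6 ≤ nN m := by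
  have h1 : 2 * hN m ≤ bN m := by
    unfold hN bN
    have : 2 ≤ m ^ 2 := by unfold Big at h; nlinarith
    calc 2 * m ^ 4 ≤ m ^ 2 * m ^ 4 := Nat.mul_le_mul_right _ this
      _ = m ^ 6 := by ring
  have := qN_add h
  unfold nN; unfold bN at *; omega

lemma lam_pos (h : Big m) : 0 < lam m := pow_pos h.pos _

lemma r1_pos (h : Big m) : 0 < r1 m := Nat.mul_pos (lam_pos h) (nN_pos m)

lemma slotLen_pos (m : ℕ) : 0 < slotLen m := by have := nN_pos m; unfold slotLen; omega

lemma midLen_pos (m : ℕ) : 0 < midLen m := Nat.mul_pos (Nat.succ_pos m) (slotLen_pos m)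

lemma r2_pos (h : Big m) : 0 < r2 m := Nat.mul_pos (lam_pos h) (midLen_pos m)

lemma groundLen_pos (m : ℕ) : 0 < groundLen m := by
  have := midLen_pos m; unfold groundLen; omega

lemma r0_pos (h : Big m) : 0 < r0 m :=
  Nat.mul_pos (Nat.mul_pos (lam_pos h) (groundLen_pos m)) (pow_pos (nN_pos m) _)

lemma width_pos (m : ℕ) : 0 < width m := by have := groundLen_pos m; unfold width; omega

lemma gridDen_pos (h : Big m) : 0 < gridDen m :=
  Nat.mul_pos (Nat.mul_pos (Nat.mul_pos (bN_pos h) (r0_pos h)) (r1_pos h)) (r2_pos h)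

lemma groundLen_le_r0 (h : Big m) : groundLen m ≤ r0 m := by
  unfold r0
  have h1 : 1 ≤ lam m := lam_pos h
  have h2 : 1 ≤ nN m ^ 2 := pow_pos (nN_pos m) _
  calc groundLen m = 1 * groundLen m * 1 := by ring
    _ ≤ lam m * groundLen m * nN m ^ 2 := by gcongr

lemma width_le (h : Big m) : width m ≤ 3 * r0 m := by
  have := groundLen_le_r0 h; unfold width; omega

lemma nN_le_r0 (h : Big m) : nN m ^ 2 ≤ r0 m := by
  unfold r0
  have h1 : 1 ≤ lam m := lam_pos h
  have h2 : 1 ≤ groundLen m := groundLen_pos m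
  calc nN m ^ 2 = 1 * 1 * nN m ^ 2 := by ring
    _ ≤ _ := by gcongr

lemma two_mul_nN_sq_le_width (h : Big m) : 2 * nN m ^ 2 ≤ width m := by
  have := nN_le_r0 h; unfold width; omega

/-! ### Slots and windows -/

lemma slotNo_le (s : Sheet m) : slotNo s ≤ m := by cases s <;> simp [slotNo]

lemma slotNo_injective : Function.Injective (slotNo (m := m)) := by
  intro a b h
  cases a <;> cases b <;> simp [slotNo, Fin.ext_iff] at h ⊢
  exact h

lemma le_slotStart (s : Sheet m) : r0 m + r2 m ≤ slotStart s := Nat.le_add_right _ _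

lemma slot_end_le (s : Sheet m) :
    slotStart s + slotLen m + r2 m + r0 m ≤ width m := by
  have h1 := slotNo_le s
  have h2 : slotNo s * slotLen m + slotLen m ≤ midLen m := by
    unfold midLen
    calc slotNo s * slotLen m + slotLen m = (slotNo s + 1) * slotLen m := by ring
      _ ≤ _ := Nat.mul_le_mul_right _ (by omega)
  unfold slotStart width groundLen; omega

lemma winStart_lt (s : Sheet m) (i : Fin (nN m)) : winStart s i < width m := by
  have h1 := slot_end_le s
  have := i.isLt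
  unfold winStart slotLen at *; omega

lemma slot_disjoint {s s' : Sheet m} (h : slotNo s < slotNo s') :
    slotStart s + slotLen m ≤ slotStart s' := by
  unfold slotStart
  have : (slotNo s + 1) * slotLen m ≤ slotNo s' * slotLen m := Nat.mul_le_mul_right _ h
  linarith

lemma winStart_injective {s s' : Sheet m} {i i' : Fin (nN m)}
    (h : winStart s i = winStart s' i') : s = s' ∧ i = i' := by
  have key : ∀ {a b : Sheet m} {x y : Fin (nN m)}, slotNo a < slotNo b →
      winStart a x < winStart b y := by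
    intro a b x y hab
    have := slot_disjoint hab
    have := x.isLt
    unfold winStart slotLen at *; omega
  rcases lt_trichotomy (slotNo s) (slotNo s') with h1 | h1 | h1
  · have := key (x := i) (y := i') h1; omega
  · have := slotNo_injective h1
    subst this
    exact ⟨rfl, Fin.ext (by unfold winStart at h; omega)⟩
  · have := key (x := i') (y := i) h1; omega

/-! ### Trapezoids -/

lemma trap_nonneg (a L R x : ℝ) : 0 ≤ trap a L R x := le_max_left _ _

lemma trap_le_one (a L R x : ℝ) : trap a L R x ≤ 1 := max_le zero_le_one (min_le_left _ _)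

lemma trap_eq_zero {a L R x : ℝ} (hR : 0 < R) (h : x ≤ a ∨ a + L ≤ x) : trap a L R x = 0 := by
  apply max_eq_left
  refine le_trans (min_le_right _ _) ?_
  rcases h with h | h
  · exact le_trans (min_le_left _ _) (div_nonpos_of_nonpos_of_nonneg (by linarith) hR.le)
  · exact le_trans (min_le_right _ _) (div_nonpos_of_nonpos_of_nonneg (by linarith) hR.le)

lemma trap_eq_one {a L R x : ℝ} (hR : 0 < R) (h1 : a + R ≤ x) (h2 : x ≤ a + L - R) :
    trap a L R x = 1 := by
  unfold trap
  have e1 : 1 ≤ (x - a) / R := by rw [le_div_iff₀ hR]; linarith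
  have e2 : 1 ≤ (a + L - x) / R := by rw [le_div_iff₀ hR]; linarith
  rw [min_eq_left (le_min e1 e2), max_eq_right zero_le_one]

lemma trap_pos_imp {a L R x : ℝ} (hR : 0 < R) (h : trap a L R x ≠ 0) : a < x ∧ x < a + L := by
  by_contra h'
  exact h (trap_eq_zero hR (by rcases not_and_or.1 h' with h | h <;> [left; right] <;> linarith))

lemma trap_lipschitz {a L R : ℝ} (hR : 0 < R) (x y : ℝ) :
    |trap a L R x - trap a L R y| ≤ |x - y| / R := by
  unfold trap
  refine le_trans (abs_max_sub_max_le_max _ _ _ _) ?_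
  rw [sub_self, abs_zero]
  refine max_le (by positivity) (le_trans (abs_min_sub_min_le_max _ _ _ _) ?_)
  rw [sub_self, abs_zero]
  refine max_le (by positivity) (le_trans (abs_min_sub_min_le_max _ _ _ _) ?_)
  refine max_le (le_of_eq ?_) (le_of_eq ?_)
  · rw [← abs_of_pos hR, ← abs_div, abs_of_pos hR]; congr 1; ring
  · rw [← abs_of_pos hR, ← abs_div, abs_of_pos hR, ← abs_neg]; congr 1; ring

lemma tau0_eq_one (h : Big m) {x : ℝ} (h1 : (r0 m : ℝ) ≤ x)
    (h2 : x ≤ (r0 m : ℝ) + groundLen m) : tau0 m x = 1 := by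
  have hR : (0 : ℝ) < r0 m := by exact_mod_cast r0_pos h
  refine trap_eq_one hR (by linarith) ?_
  have : (width m : ℝ) = 2 * r0 m + groundLen m := by norm_num [width]
  linarith

lemma tau0_zero (h : Big m) : tau0 m 0 = 0 :=
  trap_eq_zero (by exact_mod_cast r0_pos h) (Or.inl le_rfl)

lemma tau0_width (h : Big m) : tau0 m (width m) = 0 :=
  trap_eq_zero (by exact_mod_cast r0_pos h) (Or.inr (by simp))

lemma tauRow_eq_one (h : Big m) {x : ℝ} (h1 : (r0 m : ℝ) + r2 m ≤ x)
    (h2 : x ≤ (r0 m : ℝ) + r2 m + midLen m) : tauRow m x = 1 := by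
  refine trap_eq_one (by exact_mod_cast r2_pos h) (by linarith) ?_
  have : (groundLen m : ℝ) = 2 * r2 m + midLen m := by norm_num [groundLen]
  linarith

lemma tauRow_pos_tau0 (h : Big m) {x : ℝ} (hx : tauRow m x ≠ 0) : tau0 m x = 1 := by
  obtain ⟨h1, h2⟩ := trap_pos_imp (by exact_mod_cast r2_pos h) hx
  exact tau0_eq_one h h1.le h2.le

lemma tauS_eq_one (h : Big m) (s : Sheet m) {x : ℝ} (h1 : (slotStart s : ℝ) + r1 m ≤ x)
    (h2 : x ≤ (slotStart s : ℝ) + r1 m + nN m) : tauS s x = 1 := by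
  refine trap_eq_one (by exact_mod_cast r1_pos h) h1 ?_
  have : (slotLen m : ℝ) = 2 * r1 m + nN m := by norm_num [slotLen]
  linarith

lemma tauS_pos_tauRow (h : Big m) {s : Sheet m} {x : ℝ} (hx : tauS s x ≠ 0) :
    tauRow m x = 1 := by
  obtain ⟨h1, h2⟩ := trap_pos_imp (by exact_mod_cast r1_pos h) hx
  have e1 : ((r0 m : ℝ) + r2 m) ≤ slotStart s := by exact_mod_cast le_slotStart s
  have e2 : ((slotStart s : ℝ) + slotLen m + r2 m + r0 m) ≤ width m := by
    exact_mod_cast slot_end_le s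
  have : (width m : ℝ) = 2 * r0 m + (2 * r2 m + midLen m) := by norm_num [width, groundLen]
  exact tauRow_eq_one h (by linarith) (by linarith)

lemma tauS_pos_tau0 (h : Big m) {s : Sheet m} {x : ℝ} (hx : tauS s x ≠ 0) : tau0 m x = 1 :=
  tauRow_pos_tau0 h (by rw [tauS_pos_tauRow h hx]; norm_num)

lemma tauS_le_tauRow (h : Big m) (s : Sheet m) (x : ℝ) : tauS s x ≤ tauRow m x := by
  by_cases hx : tauS s x = 0
  · rw [hx]; exact trap_nonneg _ _ _ _
  · rw [tauS_pos_tauRow h hx]; exact trap_le_one _ _ _ _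

lemma tauRow_le_tau0 (h : Big m) (x : ℝ) : tauRow m x ≤ tau0 m x := by
  by_cases hx : tauRow m x = 0
  · rw [hx]; exact trap_nonneg _ _ _ _
  · rw [tauRow_pos_tau0 h hx]; exact trap_le_one _ _ _ _

lemma tauS_other (h : Big m) {s s' : Sheet m} (hne : s ≠ s') {x : ℝ} (hx : tauS s x ≠ 0) :
    tauS s' x = 0 := by
  by_contra hx'
  obtain ⟨h1, h2⟩ := trap_pos_imp (by exact_mod_cast r1_pos h) hx
  obtain ⟨h3, h4⟩ := trap_pos_imp (by exact_mod_cast r1_pos h) hx'
  rcases lt_trichotomy (slotNo s) (slotNo s') with e | e | e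
  · have : ((slotStart s : ℝ) + slotLen m) ≤ slotStart s' := by exact_mod_cast slot_disjoint e
    linarith
  · exact hne (slotNo_injective e)
  · have : ((slotStart s' : ℝ) + slotLen m) ≤ slotStart s := by exact_mod_cast slot_disjoint e
    linarith

/-! ### The label profile -/

lemma bProf_nonneg (m : ℕ) (z : ℝ) : 0 ≤ bProf m z := le_max_left _ _

lemma bProf_le_one (m : ℕ) (z : ℝ) : bProf m z ≤ 1 := max_le zero_le_one (min_le_left _ _)

lemma bProf_zero (m : ℕ) : bProf m 0 = 0 :=
  max_eq_left ((min_le_right _ _).trans ((min_le_left _ _).trans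
    ((min_le_left _ _).trans (by simp))))

lemma bProf_top (m : ℕ) : bProf m (nN m) = 0 :=
  max_eq_left ((min_le_right _ _).trans ((min_le_right _ _).trans
    ((min_le_left _ _).trans (by simp))))

lemma bProf_eq_one (h : Big m) {z : ℝ} (h1 : (qN m : ℝ) ≤ z)
    (h2 : z ≤ (nN m : ℝ) - qN m) : bProf m z = 1 := by
  have hB : (0 : ℝ) < bN m := by exact_mod_cast bN_pos h
  have hH : (1 : ℝ) ≤ hN m := by exact_mod_cast hN_pos h
  have hq : (qN m : ℝ) + hN m = bN m + 1 := by exact_mod_cast qN_add h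
  have key : ∀ y : ℝ, (qN m : ℝ) ≤ y → 1 ≤ bRise m y := by
    intro y hy
    have hy1 : (1 : ℝ) ≤ y := le_trans (by exact_mod_cast qN_pos m) hy
    refine le_min ?_ ?_ <;> rw [le_div_iff₀ hB]
    · nlinarith [mul_nonneg (sub_nonneg.2 hy1) (sub_nonneg.2 hH)]
    · linarith
  unfold bProf
  rw [min_eq_left (le_min (key z h1) (key _ (by linarith))), max_eq_right zero_le_one]

lemma bProf_rowIdx (h : Big m) (j : Fin m) : bProf m (rowIdx j) = 1 := by
  have e : (nN m : ℝ) = 2 * qN m + m := by norm_num [nN]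
  have hj : (j.val : ℝ) ≤ m := by exact_mod_cast j.isLt.le
  have : (0 : ℝ) ≤ j.val := Nat.cast_nonneg _
  refine bProf_eq_one h ?_ ?_ <;> rw [rowIdx, Nat.cast_add] <;> linarith

/-! ### Coordinates -/

@[simp] lemma eT_t : (eT : E m) (Sum.inl 0) = 1 := by simp [eT]
@[simp] lemma eT_z : (eT : E m) (Sum.inl 1) = 0 := by simp [eT]
@[simp] lemma eT_l (p : Fin m) : (eT : E m) (Sum.inr p) = 0 := by simp [eT]
@[simp] lemma eZ_t : (eZ : E m) (Sum.inl 0) = 0 := by simp [eZ]
@[simp] lemma eZ_z : (eZ : E m) (Sum.inl 1) = 1 := by simp [eZ]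
@[simp] lemma eZ_l (p : Fin m) : (eZ : E m) (Sum.inr p) = 0 := by simp [eZ]
@[simp] lemma eL_t (j : Fin m) : (eL j) (Sum.inl 0) = 0 := by simp [eL]
@[simp] lemma eL_z (j : Fin m) : (eL j) (Sum.inl 1) = 0 := by simp [eL]
lemma eL_l (j p : Fin m) : (eL j) (Sum.inr p) = if p = j then 1 else 0 := by
  simp [eL, PiLp.single_apply]

@[simp] lemma norm_eT : ‖(eT : E m)‖ = 1 := by simp [eT]
@[simp] lemma norm_eZ : ‖(eZ : E m)‖ = 1 := by simp [eZ]
@[simp] lemma norm_eL (j : Fin m) : ‖eL j‖ = 1 := by simp [eL]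

lemma inner_eT (x : E m) : ⟪eT, x⟫ = tco x := by simp [eT, tco, EuclideanSpace.inner_single_left]

lemma wireL_t (w : Wire m) (x : ℝ) : (wireL w x) (Sum.inl 0) = 0 := by
  rcases w with ⟨_ | j, i⟩ | j | _ <;> simp [wireL]

lemma tco_wirePt (A : ℝ) (cell : Bool) (w : Wire m) (x : ℝ) :
    tco (wirePt A cell w x) = A * x := by
  simp [tco, wirePt, wireL_t]

lemma pieceOf_fst (A : ℝ) (cell : Bool) (w : Wire m) (k : ℕ) :
    (pieceOf A cell w k).1 = k := rfl

/-! ### Similarities -/

lemma refl_apply {v w : E m} (h : ‖v‖ = ‖w‖) : refl v w v = w := Submodule.reflection_sub h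

lemma refl_fix {v w x : E m} (h : ⟪v - w, x⟫ = 0) : refl v w x = x := by
  refine Submodule.reflection_mem_subspace_eq_self ?_
  rwa [Submodule.mem_orthogonal_singleton_iff_inner_right]

lemma norm_dirU {p q : E m} (h : p ≠ q) : ‖dirU p q‖ = 1 := by
  unfold dirU
  rw [norm_smul, norm_inv, norm_norm, inv_mul_cancel₀]
  exact norm_ne_zero_iff.2 (sub_ne_zero.2 (Ne.symm h))

lemma segMap_zero (p q : E m) : segMap p q 0 = p := by simp [segMap]

lemma segMap_eT (p q : E m) : segMap p q eT = q := by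
  rcases eq_or_ne p q with rfl | h
  · simp [segMap]
  have hn : ‖q - p‖ ≠ 0 := norm_ne_zero_iff.2 (sub_ne_zero.2 (Ne.symm h))
  unfold segMap
  rw [refl_apply (by rw [norm_eT, norm_dirU h]), dirU, smul_smul, mul_inv_cancel₀ hn, one_smul,
    add_sub_cancel]

/-! ### Rungs -/

lemma bRise_lipschitz (h : Big m) (x y : ℝ) : |bRise m x - bRise m y| ≤ |x - y| := by
  have hB : (0 : ℝ) < bN m := by exact_mod_cast bN_pos h
  have hHB : (hN m : ℝ) ≤ bN m := by exact_mod_cast hN_le_bN h
  have h1B : (1 : ℝ) ≤ bN m := by exact_mod_cast bN_pos h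
  unfold bRise
  refine le_trans (abs_min_sub_min_le_max _ _ _ _) (max_le ?_ ?_)
  · rw [← sub_div, abs_div, abs_of_pos hB, div_le_iff₀ hB, ← sub_mul, abs_mul,
      abs_of_nonneg (Nat.cast_nonneg (α := ℝ) (hN m))]
    exact mul_le_mul_of_nonneg_left hHB (abs_nonneg _)
  · rw [← sub_div, abs_div, abs_of_pos hB, div_le_iff₀ hB,
      show (hN m : ℝ) + x - 1 - ((hN m : ℝ) + y - 1) = x - y by ring]
    exact le_mul_of_one_le_right (abs_nonneg _) h1B

lemma bProf_lipschitz (h : Big m) (x y : ℝ) : |bProf m x - bProf m y| ≤ |x - y| := by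
  unfold bProf
  refine le_trans (abs_max_sub_max_le_max _ _ _ _) ?_
  rw [sub_self, abs_zero]
  refine max_le (abs_nonneg _) (le_trans (abs_min_sub_min_le_max _ _ _ _) ?_)
  rw [sub_self, abs_zero]
  refine max_le (abs_nonneg _) (le_trans (abs_min_sub_min_le_max _ _ _ _) ?_)
  refine max_le (bRise_lipschitz h x y) (le_trans (bRise_lipschitz h _ _) ?_)
  rw [show (nN m : ℝ) - x - ((nN m : ℝ) - y) = y - x by ring, abs_sub_comm]

/-- label step of a rung -/
def rungLabel (s : Sheet m) (i : Fin (nN m)) : E m :=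
  match s with
  | none => 0
  | some j => (bProf m ((i.val + 1 : ℕ) : ℝ) - bProf m i.val) • eL j

/-- squared length of a rung -/
def rungSq (s : Sheet m) (i : Fin (nN m)) : ℝ :=
  1 + (if s.isSome then (bProf m ((i.val + 1 : ℕ) : ℝ) - bProf m i.val) ^ 2 else 0)

lemma window_profiles (h : Big m) (s : Sheet m) (i : Fin (nN m)) {c : ℝ}
    (hc : c ∈ Set.Icc (0 : ℝ) 1) :
    tau0 m (winStart s i + c) = 1 ∧ tauS s (winStart s i + c) = 1 ∧
      tauRow m (winStart s i + c) = 1 := by
  have hi : (i.val : ℝ) + 1 ≤ nN m := by exact_mod_cast i.isLt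
  have hi0 : (0 : ℝ) ≤ i.val := Nat.cast_nonneg _
  have hs : tauS s (winStart s i + c) = 1 := by
    refine tauS_eq_one h s ?_ ?_ <;> simp only [winStart, Nat.cast_add] <;>
      linarith [hc.1, hc.2]
  have hne : tauS s (winStart s i + c) ≠ 0 := by rw [hs]; norm_num
  exact ⟨tauS_pos_tau0 h hne, hs, tauS_pos_tauRow h hne⟩

lemma rung_vec (h : Big m) (A : ℝ) (cell : Bool) (s : Sheet m) (i : Fin (nN m)) {c : ℝ}
    (hc : c ∈ Set.Icc (0 : ℝ) 1) :
    wirePt A cell (.lane s i.succ) (winStart s i + c) -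
      wirePt A cell (.lane s i.castSucc) (winStart s i + c) = eZ + rungLabel s i := by
  obtain ⟨h0, h1, -⟩ := window_profiles h s i hc
  rcases s with _ | j
  · simp only [wirePt, wireZ, wireL, rungLabel, Fin.val_succ, Fin.val_castSucc, h0, mul_one,
      Nat.cast_add, Nat.cast_one]
    module
  · simp only [wirePt, wireZ, wireL, rungLabel, Fin.val_succ, Fin.val_castSucc, h0, h1, mul_one,
      Nat.cast_add, Nat.cast_one]
    module

lemma rungHi_sub_rungLo (h : Big m) (A : ℝ) (cell : Bool) (s : Sheet m) (i : Fin (nN m)) :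
    rungHi A cell s i - rungLo A cell s i = eZ + rungLabel s i := by
  simpa [rungHi, rungLo] using rung_vec h A cell s i (c := 0) ⟨le_rfl, zero_le_one⟩

lemma norm_sq_rung (s : Sheet m) (i : Fin (nN m)) :
    ‖(eZ : E m) + rungLabel s i‖ ^ 2 = rungSq s i := by
  rw [norm_add_sq_real, norm_eZ]
  rcases s with _ | j
  · simp [rungLabel, rungSq]
  · simp [rungLabel, rungSq, norm_smul, inner_smul_right, eZ, EuclideanSpace.inner_single_left]

lemma rungSq_le (h : Big m) (s : Sheet m) (i : Fin (nN m)) : rungSq s i ≤ 2 := by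
  unfold rungSq
  split
  · have := bProf_lipschitz h ((i.val + 1 : ℕ) : ℝ) i.val
    have e : |(((i.val + 1 : ℕ) : ℝ) - i.val)| = 1 := by simp
    rw [e] at this
    nlinarith [abs_le.1 this]
  · norm_num

lemma rungLen_eq (h : Big m) (A : ℝ) (cell : Bool) (s : Sheet m) (i : Fin (nN m)) :
    rungLen A cell s i = Real.sqrt (rungSq s i) := by
  unfold rungLen
  rw [rungHi_sub_rungLo h, ← norm_sq_rung, Real.sqrt_sq (norm_nonneg _)]

lemma one_le_rungLen (h : Big m) (A : ℝ) (cell : Bool) (s : Sheet m) (i : Fin (nN m)) :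
    1 ≤ rungLen A cell s i := by
  rw [rungLen_eq h, Real.one_le_sqrt]
  unfold rungSq; split <;> nlinarith

lemma rungLen_le (h : Big m) (A : ℝ) (cell : Bool) (s : Sheet m) (i : Fin (nN m)) :
    rungLen A cell s i ≤ 3 / 2 := by
  rw [rungLen_eq h]
  exact le_trans (Real.sqrt_le_sqrt (rungSq_le h s i)) (by rw [Real.sqrt_le_iff]; norm_num)

lemma rungU_eT (h : Big m) (A : ℝ) (cell : Bool) (s : Sheet m) (i : Fin (nN m)) :
    refl eZ (dirU (rungLo A cell s i) (rungHi A cell s i)) (eT : E m) = eT := by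
  refine refl_fix ?_
  rw [inner_sub_left, dirU, rungHi_sub_rungLo h, inner_smul_left, inner_add_left]
  rcases s with _ | j <;>
    simp [rungLabel, eZ, eT, inner_smul_left, eL, EuclideanSpace.inner_single_left]

lemma rungU_eZ (h : Big m) (A : ℝ) (cell : Bool) (s : Sheet m) (i : Fin (nN m)) :
    rungLen A cell s i • refl eZ (dirU (rungLo A cell s i) (rungHi A cell s i)) (eZ : E m) =
      eZ + rungLabel s i := by
  have hne : rungLo A cell s i ≠ rungHi A cell s i := by
    intro e
    have := one_le_rungLen h A cell s i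
    unfold rungLen at this
    rw [e, sub_self, norm_zero] at this
    linarith
  rw [refl_apply (by rw [norm_eZ, norm_dirU hne]), dirU, ← rungHi_sub_rungLo h A cell s i,
    smul_smul, rungLen, mul_inv_cancel₀ (norm_ne_zero_iff.2 (sub_ne_zero.2 hne.symm)), one_smul]

lemma width_mul_childA (h : Big m) (A : ℝ) (cell : Bool) (s : Sheet m) (i : Fin (nN m)) :
    childA A cell s i * width m * (rungLen A cell s i / nN m) = A := by
  have h1 : rungLen A cell s i ≠ 0 := by linarith [one_le_rungLen h A cell s i]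
  have h2 : (width m : ℝ) ≠ 0 := by exact_mod_cast (width_pos m).ne'
  have h3 : (nN m : ℝ) ≠ 0 := by exact_mod_cast (nN_pos m).ne'
  unfold childA; field_simp

lemma childA_aok (h : Big m) {l : ℕ} {A : ℝ} (hA : AOk m (l + 1) A) (cell : Bool) (s : Sheet m)
    (i : Fin (nN m)) : AOk m l (childA A cell s i) := by
  have hW : (0 : ℝ) < width m := by exact_mod_cast width_pos m
  have hn : (1 : ℝ) ≤ nN m := by exact_mod_cast nN_pos m
  have hnW : (nN m : ℝ) ≤ width m := by
    have := two_mul_nN_sq_le_width h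
    have : nN m ≤ nN m ^ 2 := Nat.le_self_pow (by norm_num) _
    exact_mod_cast (by omega : nN m ≤ width m)
  have hl1 := one_le_rungLen h A cell s i
  have hl2 := rungLen_le h A cell s i
  have hpos : 0 < rungLen A cell s i * width m := by positivity
  have hA0 : 0 ≤ A := le_trans (by positivity) hA.1
  refine ⟨?_, ?_⟩
  · rw [childA, le_div_iff₀ hpos]
    calc (2 * width m : ℝ) ^ l * (width m : ℝ) ^ 2 * (rungLen A cell s i * width m)
        ≤ (2 * width m : ℝ) ^ l * (width m : ℝ) ^ 2 * (2 * width m * nN m) := by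
          refine mul_le_mul_of_nonneg_left ?_ (by positivity)
          nlinarith
      _ = (2 * width m : ℝ) ^ (l + 1) * (width m : ℝ) ^ 2 * nN m := by ring
      _ ≤ A * nN m := mul_le_mul_of_nonneg_right hA.1 (by positivity)
  · refine le_trans ?_ hA.2
    rw [childA, div_le_iff₀ hpos]
    refine mul_le_mul_of_nonneg_left ?_ hA0
    nlinarith

lemma AOk.sq_le {l : ℕ} {A : ℝ} (hA : AOk m l A) : (width m : ℝ) ^ 2 ≤ A := by
  refine le_trans (le_mul_of_one_le_left (sq_nonneg _) (one_le_pow₀ ?_)) hA.1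
  have : (1 : ℝ) ≤ width m := by exact_mod_cast width_pos m
  linarith

lemma AOk.one_le {l : ℕ} {A : ℝ} (hA : AOk m l A) : 1 ≤ A := by
  refine le_trans (one_le_pow₀ ?_) hA.sq_le
  exact_mod_cast width_pos m

lemma AOk.width_le {l : ℕ} {A : ℝ} (hA : AOk m l A) : (width m : ℝ) ≤ A := by
  refine le_trans ?_ hA.sq_le
  have : (1 : ℝ) ≤ width m := by exact_mod_cast width_pos m
  nlinarith

lemma root_aok : AOk m (levels m) (rootA m) := ⟨le_rfl, le_rfl⟩

end Vale.Agent.P208

end
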