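import Mathlib

/-!
P208: covering numbers at half radius, and the gluing lemma that keeps them bounded when a
skeleton carries children.
-/

namespace Vale.Agent.P208

open Metric Set

variable {E F : Type*} [PseudoMetricSpace E] [PseudoMetricSpace F]

/-- Each piece of `X` in a ball is covered by `K` balls of half the radius, centred anywhere. -/
def Covers (K : ℕ) (X : Set E) : Prop :=
  ∀ (x : E) (r : ℝ), 0 < r → ∃ T : Finset E, T.card ≤ K ∧
    X ∩ closedBall x r ⊆ ⋃ c ∈ T, closedBall c (r / 2)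

lemma Covers.mono {K : ℕ} {X Y : Set E} (h : Covers K Y) (hXY : X ⊆ Y) : Covers K X :=
  fun x r hr => let ⟨T, hT, hc⟩ := h x r hr
    ⟨T, hT, (inter_subset_inter_left _ hXY).trans hc⟩

lemma Covers.of_le {K L : ℕ} {X : Set E} (h : Covers K X) (hKL : K ≤ L) : Covers L X :=
  fun x r hr => let ⟨T, hT, hc⟩ := h x r hr
    ⟨T, hT.trans hKL, hc⟩

lemma Covers.union {K L : ℕ} {X Y : Set E} (hX : Covers K X) (hY : Covers L Y) :
    Covers (K + L) (X ∪ Y) := by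
  classical
  intro x r hr
  obtain ⟨S, hS, hS'⟩ := hX x r hr
  obtain ⟨T, hT, hT'⟩ := hY x r hr
  refine ⟨S ∪ T, (Finset.card_union_le _ _).trans (Nat.add_le_add hS hT), ?_⟩
  rintro y ⟨hy | hy, hyb⟩
  · obtain ⟨c, hc, hyc⟩ := mem_iUnion₂.1 (hS' ⟨hy, hyb⟩)
    exact mem_iUnion₂.2 ⟨c, Finset.mem_union_left _ hc, hyc⟩
  · obtain ⟨c, hc, hyc⟩ := mem_iUnion₂.1 (hT' ⟨hy, hyb⟩)
    exact mem_iUnion₂.2 ⟨c, Finset.mem_union_right _ hc, hyc⟩

/-- Iterated covering: `K ^ n` balls of radius `r / 2 ^ n`. -/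
lemma Covers.iterate {K : ℕ} {X : Set E} (h : Covers K X) :
    ∀ (n : ℕ) (x : E) {r : ℝ}, 0 < r → ∃ T : Finset E, T.card ≤ K ^ n ∧
      X ∩ closedBall x r ⊆ ⋃ c ∈ T, closedBall c (r / 2 ^ n) := by
  classical
  intro n
  induction n with
  | zero => exact fun x r _ => ⟨{x}, by simp, by simp⟩
  | succ n ih =>
    intro x r hr
    obtain ⟨T, hT, hc⟩ := ih x hr
    choose U hU hUc using fun c => h c (r / 2 ^ n) (by positivity)
    refine ⟨T.biUnion U, Finset.card_biUnion_le.trans ?_, ?_⟩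
    · calc ∑ c ∈ T, (U c).card ≤ ∑ _c ∈ T, K := Finset.sum_le_sum fun c _ => hU c
        _ ≤ K ^ n * K := by rw [Finset.sum_const, smul_eq_mul]; exact Nat.mul_le_mul_right _ hT
        _ = K ^ (n + 1) := (pow_succ K n).symm
    · rintro y ⟨hy, hyb⟩
      obtain ⟨c, hcT, hyc⟩ := mem_iUnion₂.1 (hc ⟨hy, hyb⟩)
      obtain ⟨c', hc', hyc'⟩ := mem_iUnion₂.1 (hUc c ⟨hy, hyc⟩)
      refine mem_iUnion₂.2 ⟨c', Finset.mem_biUnion.2 ⟨c, hcT, hc'⟩, ?_⟩
      rwa [pow_succ, ← div_div]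

/-- The points of a ball that are within a tenth of the radius of a covered set. -/
lemma Covers.near {K : ℕ} {T : Set E} (h : Covers K T) (x : E) {r : ℝ} (hr : 0 < r) {Y : Set E}
    (hY : ∀ p ∈ Y, ∃ q ∈ T, dist p q ≤ r / 10) :
    ∃ U : Finset E, U.card ≤ K ^ 3 ∧ Y ∩ closedBall x r ⊆ ⋃ c ∈ U, closedBall c (r / 2) := by
  obtain ⟨U, hU, hc⟩ := h.iterate 3 x (r := 2 * r) (by positivity)
  refine ⟨U, hU, fun p ⟨hp, hpb⟩ => ?_⟩
  obtain ⟨q, hq, hpq⟩ := hY p hp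
  have hqx : dist q x ≤ 2 * r := by
    linarith [dist_triangle q p x, mem_closedBall.1 hpb, dist_comm p q]
  obtain ⟨c, hcU, hqc⟩ := mem_iUnion₂.1 (hc ⟨hq, mem_closedBall.2 hqx⟩)
  refine mem_iUnion₂.2 ⟨c, hcU, mem_closedBall.2 ?_⟩
  linarith [dist_triangle p q c, mem_closedBall.1 hqc]

/-- GLUING. A skeleton `S` with children `C i`, each with its own skeleton `C₀ i`. Two points of
different children are far apart compared with their distance to `S`, and a point of a child is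
far from the rest of `S` compared with its distance to `S ∪ C₀ i`. Then the covering constant
of the whole is the maximum of the children's constant and one that depends on skeletons only. -/
lemma covers_glue {ι : Type*} {K L M : ℕ} {X S : Set E} {C C₀ : ι → Set E}
    (hX : X ⊆ S ∪ ⋃ i, C i) (hS : Covers L S) (hC : ∀ i, Covers K (C i))
    (hC₀ : ∀ i, Covers M (C₀ i))
    (hA : ∀ i j, i ≠ j → ∀ x ∈ C i, ∀ y ∈ C j, ∃ q ∈ S, dist x q ≤ dist x y / 20)
    (hB : ∀ i, ∀ x ∈ C i, ∀ y ∈ S, y ∉ C i → ∃ q ∈ S ∪ C₀ i, dist x q ≤ dist x y / 20) :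
    Covers (max K ((L + M) ^ 3)) X := by
  classical
  intro x r hr
  by_cases h0 : ∀ i, C i ∩ closedBall x r = ∅
  · obtain ⟨U, hU, hc⟩ := hS.near x hr (Y := S) fun p hp => ⟨p, hp, by simp; positivity⟩
    refine ⟨U, hU.trans ((Nat.pow_le_pow_left (Nat.le_add_right L M) 3).trans (le_max_right _ _)),
      fun p ⟨hp, hpb⟩ => ?_⟩
    rcases hX hp with hp | hp
    · exact hc ⟨hp, hpb⟩
    · obtain ⟨i, hi⟩ := mem_iUnion.1 hp
      exact absurd (h0 i) (nonempty_iff_ne_empty.1 ⟨p, hi, hpb⟩)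
  push Not at h0
  obtain ⟨i, hi⟩ := h0
  by_cases hone : X ∩ closedBall x r ⊆ C i
  · obtain ⟨U, hU, hc⟩ := hC i x r hr
    exact ⟨U, hU.trans (le_max_left _ _), fun p hp => hc ⟨hone hp, hp.2⟩⟩
  obtain ⟨U, hU, hc⟩ := (hS.union (hC₀ i)).near x hr
    (Y := X ∩ closedBall x r) fun p ⟨hp, hpb⟩ => by
      have hd : ∀ y ∈ closedBall x r, dist p y ≤ 2 * r := fun y hy => by
        linarith [dist_triangle p x y, mem_closedBall.1 hy, dist_comm x y, mem_closedBall.1 hpb]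
      rcases hX hp with hpS | hpC
      · exact ⟨p, Or.inl hpS, by simp; positivity⟩
      obtain ⟨j, hj⟩ := mem_iUnion.1 hpC
      rcases eq_or_ne j i with rfl | hji
      · obtain ⟨y, ⟨hy, hyb⟩, hyi⟩ := not_subset.1 hone
        rcases hX hy with hyS | hyC
        · obtain ⟨q, hq, hpq⟩ := hB j p hj y hyS hyi
          exact ⟨q, hq, by linarith [hd y hyb]⟩
        · obtain ⟨l, hl⟩ := mem_iUnion.1 hyC
          obtain ⟨q, hq, hpq⟩ := hA j l (fun e => hyi (e ▸ hl)) p hj y hl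
          exact ⟨q, Or.inl hq, by linarith [hd y hyb]⟩
      · obtain ⟨y, hy, hyb⟩ := hi
        obtain ⟨q, hq, hpq⟩ := hA j i hji p hj y hy
        exact ⟨q, Or.inl hq, by linarith [hd y hyb]⟩
  exact ⟨U, hU.trans (le_max_right _ _), fun p hp => hc ⟨hp, hp.2⟩⟩

/-- Covering numbers pull back along a map that is bi-Lipschitz on the set. -/
lemma Covers.of_map {K L n : ℕ} {X : Set E} {Y : Set F} (hY : Covers K Y) (f : E → F)
    (hmap : MapsTo f X Y) (hn : 8 * L * L ≤ 2 ^ n)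
    (hup : ∀ p ∈ X, ∀ q ∈ X, dist (f p) (f q) ≤ L * dist p q)
    (hlow : ∀ p ∈ X, ∀ q ∈ X, dist p q ≤ L * dist (f p) (f q)) :
    Covers (K ^ n) X := by
  classical
  intro x r hr
  rcases (X ∩ closedBall x r).eq_empty_or_nonempty with he | ⟨p₀, hp₀, hp₀b⟩
  · exact ⟨∅, by simp, by simp [he]⟩
  rcases Nat.eq_zero_or_pos L with rfl | hL
  · refine ⟨{p₀}, ?_, fun p ⟨hp, _⟩ => mem_iUnion₂.2 ⟨p₀, by simp, mem_closedBall.2 ?_⟩⟩
    · obtain ⟨T, hT, hc⟩ := hY (f p₀) 1 one_pos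
      obtain ⟨c, hcT, -⟩ := mem_iUnion₂.1 (hc ⟨hmap hp₀, mem_closedBall.2 (by simp)⟩)
      rw [Finset.card_singleton]
      exact Nat.one_le_pow _ _ ((Finset.card_pos.2 ⟨c, hcT⟩).trans_le hT)
    · linarith [(hlow p hp p₀ hp₀).trans_eq (show ((0 : ℕ) : ℝ) * dist (f p) (f p₀) = 0 by simp)]
  obtain ⟨T, hT, hc⟩ := hY.iterate n (f p₀) (r := 2 * L * r) (by positivity)
  let g : F → E := fun c => if h : ∃ p ∈ X, dist (f p) c ≤ 2 * L * r / 2 ^ n
    then h.choose else p₀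
  refine ⟨T.image g, Finset.card_image_le.trans hT, fun p ⟨hp, hpb⟩ => ?_⟩
  have hd : dist (f p) (f p₀) ≤ 2 * L * r := by
    refine (hup p hp p₀ hp₀).trans ?_
    have : dist p p₀ ≤ 2 * r := by
      linarith [dist_triangle p x p₀, mem_closedBall.1 hpb, mem_closedBall.1 hp₀b, dist_comm x p₀]
    nlinarith [(Nat.cast_nonneg L : (0 : ℝ) ≤ L)]
  obtain ⟨c, hcT, hpc⟩ := mem_iUnion₂.1 (hc ⟨hmap hp, mem_closedBall.2 hd⟩)
  have hex : ∃ p ∈ X, dist (f p) c ≤ 2 * L * r / 2 ^ n := ⟨p, hp, hpc⟩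
  refine mem_iUnion₂.2 ⟨g c, Finset.mem_image_of_mem _ hcT, mem_closedBall.2 ?_⟩
  have hg : g c = hex.choose := dif_pos hex
  rw [hg]
  refine (hlow p hp _ hex.choose_spec.1).trans ?_
  have h1 : dist (f p) (f hex.choose) ≤ 4 * L * r / 2 ^ n := by
    have h2 := dist_triangle (f p) c (f hex.choose)
    rw [dist_comm c] at h2
    have h3 : 4 * (L : ℝ) * r / 2 ^ n = 2 * (2 * L * r / 2 ^ n) := by ring
    linarith [mem_closedBall.1 hpc, hex.choose_spec.2]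
  refine (mul_le_mul_of_nonneg_left h1 (Nat.cast_nonneg L)).trans ?_
  rw [← mul_div_assoc, div_le_iff₀ (by positivity)]
  have h4 : (8 : ℝ) * L * L ≤ 2 ^ n := by exact_mod_cast hn
  nlinarith

lemma covers_real : Covers 2 (univ : Set ℝ) := fun x r _ => by
  classical
  refine ⟨{x - r / 2, x + r / 2}, Finset.card_le_two, fun y hy => ?_⟩
  have := abs_le.1 (Real.dist_eq y x ▸ mem_closedBall.1 hy.2)
  rcases le_total y x with h | h
  · refine mem_iUnion₂.2 ⟨x - r / 2, by simp, mem_closedBall.2 ?_⟩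
    rw [Real.dist_eq, abs_le]; constructor <;> linarith
  · refine mem_iUnion₂.2 ⟨x + r / 2, by simp, mem_closedBall.2 ?_⟩
    rw [Real.dist_eq, abs_le]; constructor <;> linarith

lemma Covers.prod {K L : ℕ} {X : Set E} {Y : Set F} (hX : Covers K X) (hY : Covers L Y) :
    Covers (K * L) (X ×ˢ Y) := by
  classical
  intro x r hr
  obtain ⟨S, hS, hS'⟩ := hX x.1 r hr
  obtain ⟨T, hT, hT'⟩ := hY x.2 r hr
  refine ⟨S ×ˢ T, (Finset.card_product _ _).trans_le (Nat.mul_le_mul hS hT), ?_⟩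
  rintro p ⟨hp, hpb⟩
  rw [mem_closedBall, Prod.dist_eq, max_le_iff] at hpb
  obtain ⟨a, ha, hpa⟩ := mem_iUnion₂.1 (hS' ⟨hp.1, mem_closedBall.2 hpb.1⟩)
  obtain ⟨b, hb, hpb'⟩ := mem_iUnion₂.1 (hT' ⟨hp.2, mem_closedBall.2 hpb.2⟩)
  exact mem_iUnion₂.2 ⟨(a, b), Finset.mk_mem_product ha hb,
    mem_closedBall.2 (max_le (mem_closedBall.1 hpa) (mem_closedBall.1 hpb'))⟩

lemma covers_plane : Covers 4 (univ : Set (ℝ × ℝ)) :=
  (covers_real.prod covers_real).mono (by simp)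

/-- Balls centred in the set, in the form of the problem's definition. -/
lemma Covers.centred {K : ℕ} {X : Set E} (h : Covers K X) (x : E) {r : ℝ} (hr : 0 < r) :
    ∃ T : Finset E, (↑T : Set E) ⊆ X ∧ T.card ≤ K ^ 3 ∧
      X ∩ ball x r ⊆ ⋃ c ∈ T, ball c (r / 2) := by
  classical
  rcases (X ∩ ball x r).eq_empty_or_nonempty with he | ⟨p₀, hp₀⟩
  · exact ⟨∅, by simp, by simp, by simp [he]⟩
  obtain ⟨T, hT, hc⟩ := h.iterate 3 x hr
  let g : E → E := fun c => if h : ∃ p ∈ X, dist p c ≤ r / 2 ^ 3 then h.choose else p₀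
  refine ⟨T.image g, ?_, Finset.card_image_le.trans hT, fun p ⟨hp, hpb⟩ => ?_⟩
  · intro q hq
    obtain ⟨c, -, rfl⟩ := Finset.mem_image.1 (Finset.mem_coe.1 hq)
    simp only [g]
    split_ifs with hcx
    · exact hcx.choose_spec.1
    · exact hp₀.1
  obtain ⟨c, hcT, hpc⟩ := mem_iUnion₂.1 (hc ⟨hp, ball_subset_closedBall hpb⟩)
  have hex : ∃ p ∈ X, dist p c ≤ r / 2 ^ 3 := ⟨p, hp, hpc⟩
  refine mem_iUnion₂.2 ⟨g c, Finset.mem_image_of_mem _ hcT, mem_ball.2 ?_⟩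
  have hg : g c = hex.choose := dif_pos hex
  rw [hg]
  linarith [dist_triangle p c hex.choose, mem_closedBall.1 hpc, hex.choose_spec.2,
    dist_comm c hex.choose]

end Vale.Agent.P208
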