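import Mathlib

/-!
Definitions for the disproof of the Lang-Plaut question (note 475).

One gadget: `n + 1` lanes over the axis `t`, sheets `A j` lifted inside disjoint time slots, and
rows lifted over the whole middle. All coordinates are affine on each unit interval of time.
-/

noncomputable section

open Finset

namespace Vale.Agent.P208

/-- ambient space of the `m`-th set: time, height and `m` labels -/
abbrev E (m : ℕ) := EuclideanSpace ℝ (Fin 2 ⊕ Fin m)

variable {m : ℕ}

/-- unit vector of time -/
def eT : E m := EuclideanSpace.single (Sum.inl 0) 1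

/-- unit vector of height -/
def eZ : E m := EuclideanSpace.single (Sum.inl 1) 1

/-- unit vector of a label -/
def eL (j : Fin m) : E m := EuclideanSpace.single (Sum.inr j) 1

/-! ### Parameters -/

/-- numerator of the first jump of the profile -/
def hN (m : ℕ) : ℕ := m ^ 4

/-- denominator of the profile -/
def bN (m : ℕ) : ℕ := m ^ 6

/-- length of each of the two ramps of the profile -/
def qN (m : ℕ) : ℕ := bN m - hN m + 1

/-- number of rungs -/
def nN (m : ℕ) : ℕ := 2 * qN m + m

/-- ratio between a ramp and its plateau -/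
def lam (m : ℕ) : ℕ := m ^ 90

/-- ramp of a slot -/
def r1 (m : ℕ) : ℕ := lam m * nN m

/-- length of a slot -/
def slotLen (m : ℕ) : ℕ := 2 * r1 m + nN m

/-- length of all slots -/
def midLen (m : ℕ) : ℕ := (m + 1) * slotLen m

/-- ramp of a row -/
def r2 (m : ℕ) : ℕ := lam m * midLen m

/-- length of the ground plateau -/
def groundLen (m : ℕ) : ℕ := 2 * r2 m + midLen m

/-- ramp of the ground -/
def r0 (m : ℕ) : ℕ := lam m * groundLen m * nN m ^ 2

/-- number of unit intervals -/
def width (m : ℕ) : ℕ := 2 * r0 m + groundLen m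

/-- all coordinates at integer times are integer multiples of `1 / gridDen` -/
def gridDen (m : ℕ) : ℕ := bN m * r0 m * r1 m * r2 m

/-! ### Profiles -/

/-- trapezoid with support `[a, a + L]` and ramps of length `R` -/
def trap (a L R x : ℝ) : ℝ := max 0 (min 1 (min ((x - a) / R) ((a + L - x) / R)))

/-- a sheet: `none` is the ground -/
abbrev Sheet (m : ℕ) := Option (Fin m)

/-- number of the slot of a sheet -/
def slotNo : Sheet m → ℕ
  | none => 0
  | some j => j.val + 1

/-- start of the slot of a sheet -/
def slotStart (s : Sheet m) : ℕ := r0 m + r2 m + slotNo s * slotLen m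

/-- height profile of the lanes -/
def tau0 (m : ℕ) (x : ℝ) : ℝ := trap 0 (width m) (r0 m) x

/-- profile of the rows -/
def tauRow (m : ℕ) (x : ℝ) : ℝ := trap (r0 m) (groundLen m) (r2 m) x

/-- profile of a sheet -/
def tauS (s : Sheet m) (x : ℝ) : ℝ := trap (slotStart s) (slotLen m) (r1 m) x

/-- rising side of the label profile: a jump to `hN / bN`, then slope `1 / bN` -/
def bRise (m : ℕ) (z : ℝ) : ℝ := min (z * hN m / bN m) ((hN m + z - 1) / bN m)

/-- the label profile across the lanes: `0` at both ends, `1` on the middle -/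
def bProf (m : ℕ) (z : ℝ) : ℝ := max 0 (min 1 (min (bRise m z) (bRise m (nN m - z))))

/-- height of the row of `j` -/
def rowIdx (j : Fin m) : ℕ := qN m + j.val

/-- the wires of a gadget -/
inductive Wire (m : ℕ)
  | lane (s : Sheet m) (i : Fin (nN m + 1))
  | row (j : Fin m)
  | top
  deriving DecidableEq, Fintype

/-- height of a wire; in a cell the top wire is straight -/
def wireZ (cell : Bool) : Wire m → ℝ → ℝ
  | .lane _ i, x => (i.val : ℝ) * tau0 m x
  | .row j, x => (rowIdx j : ℝ) * tau0 m x
  | .top, x => if cell then (nN m : ℝ) else (nN m : ℝ) * tau0 m x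

/-- label part of a wire -/
def wireL : Wire m → ℝ → E m
  | .lane none _, _ => 0
  | .lane (some j) i, x => (bProf m i.val * tauS (some j) x) • eL j
  | .row j, x => tauRow m x • eL j
  | .top, _ => 0

/-- point of a wire at time `A * x` -/
def wirePt (A : ℝ) (cell : Bool) (w : Wire m) (x : ℝ) : E m :=
  (A * x) • eT + wireZ cell w x • eZ + wireL w x

/-- the wire of a rung end -/
def laneOf (s : Sheet m) (i : ℕ) (h : i ≤ nN m) : Wire m := .lane s ⟨i, by omega⟩

/-! ### Similarities -/

/-- the isometry exchanging two vectors of equal norm -/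
def refl (v w : E m) : E m ≃ₗᵢ[ℝ] E m := Submodule.reflection (ℝ ∙ (v - w))ᗮ

/-- direction of a segment -/
def dirU (p q : E m) : E m := ‖q - p‖⁻¹ • (q - p)

/-- similarity taking `0, eT` to `p, q` -/
def segMap (p q : E m) (x : E m) : E m := p + ‖q - p‖ • refl eT (dirU p q) x

/-- start of the window of a rung -/
def winStart (s : Sheet m) (i : Fin (nN m)) : ℕ := slotStart s + r1 m + i.val

/-- bottom end of a rung at the start of its window -/
def rungLo (A : ℝ) (cell : Bool) (s : Sheet m) (i : Fin (nN m)) : E m :=
  wirePt A cell (.lane s i.castSucc) (winStart s i)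

/-- top end of a rung at the start of its window -/
def rungHi (A : ℝ) (cell : Bool) (s : Sheet m) (i : Fin (nN m)) : E m :=
  wirePt A cell (.lane s i.succ) (winStart s i)

/-- length of a rung -/
def rungLen (A : ℝ) (cell : Bool) (s : Sheet m) (i : Fin (nN m)) : ℝ :=
  ‖rungHi A cell s i - rungLo A cell s i‖

/-- aspect of the child of a rung: it fills the window exactly -/
def childA (A : ℝ) (cell : Bool) (s : Sheet m) (i : Fin (nN m)) : ℝ :=
  A * nN m / (rungLen A cell s i * width m)

/-- similarity of the child of a rung -/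
def rungMap (A : ℝ) (cell : Bool) (s : Sheet m) (i : Fin (nN m)) (x : E m) : E m :=
  rungLo A cell s i + (rungLen A cell s i / nN m) •
    refl eZ (dirU (rungLo A cell s i) (rungHi A cell s i)) x

/-! ### The pieces and the sets -/

/-- a piece: its interval and its two ends -/
abbrev Piece (m : ℕ) := ℕ × E m × E m

/-- the piece of a wire on one interval -/
def pieceOf (A : ℝ) (cell : Bool) (w : Wire m) (k : ℕ) : Piece m :=
  (k, wirePt A cell w k, wirePt A cell w ((k + 1 : ℕ) : ℝ))

/-- all pieces of a gadget -/
def IsPiece (A : ℝ) (cell : Bool) (P : Piece m) : Prop :=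
  ∃ (w : Wire m) (k : ℕ), k < width m ∧ P = pieceOf A cell w k

/-- pieces owned by the child of a rung -/
def Owned (A : ℝ) (cell : Bool) (P : Piece m) : Prop :=
  ∃ (s : Sheet m) (i : Fin (nN m)), P = pieceOf A cell (.lane s i.castSucc) (winStart s i) ∨
    P = pieceOf A cell (.lane s i.succ) (winStart s i)

/-- a gadget of the given number of levels over the segment set `S` -/
def treeSet (S : Set (E m)) : ℕ → Bool → ℝ → Set (E m)
  | 0, cell, A => ⋃ P : {P : Piece m // IsPiece A cell P}, segMap P.1.2.1 P.1.2.2 '' S
  | l + 1, cell, A =>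
      (⋃ P : {P : Piece m // IsPiece A cell P ∧ ¬ Owned A cell P},
          segMap P.1.2.1 P.1.2.2 '' S) ∪
        ⋃ si : Sheet m × Fin (nN m),
          rungMap A cell si.1 si.2 '' treeSet S l true (childA A cell si.1 si.2)

/-- number of levels -/
def levels (m : ℕ) : ℕ := m ^ 6 * nN m + 1

/-- aspect of a root gadget -/
def rootA (m : ℕ) : ℝ := (2 * width m : ℝ) ^ levels m * (width m : ℝ) ^ 2

/-- how thin a segment set is, relative to the distance to the ends -/
def thin (m : ℕ) : ℝ := 1 / (4000 * rootA m * gridDen m)

/-- tolerance of the deficit -/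
def tol (m : ℕ) : ℝ := 1 / (m : ℝ) ^ 50

/-- relative margin of a segment without children -/
def margin (m : ℕ) : ℝ := tol m / (8 * m * (rootA m * width m) ^ 2)

/-- increase per round -/
def etaR (m : ℕ) : ℝ := tol m / ((rootA m * width m) ^ 2 * (nN m : ℝ) ^ 2 * m)

/-- number of parts of a segment -/
def parts (m : ℕ) : ℕ := ⌈1 / (thin m * margin m)⌉₊ + 1

/-- number of rounds -/
def rounds (m : ℕ) : ℕ := ⌈(m : ℝ) / etaR m⌉₊ + 1

/-- start of a part -/
def partStart (m k : ℕ) : ℝ := margin m + (k : ℝ) * ((1 - 2 * margin m) / parts m)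

/-- similarity placing a root gadget on a part -/
def partMap (k : ℕ) (x : E m) : E m :=
  partStart m k • eT + ((1 - 2 * margin m) / parts m / (rootA m * width m)) • x

/-- the axis between two parameters -/
def axisSeg (a b : ℝ) : Set (E m) := (fun t : ℝ => t • eT) '' Set.Icc a b

/-- the segment set after the given number of rounds -/
def segSet : ℕ → Set (E m)
  | 0 => axisSeg 0 1
  | r + 1 => axisSeg 0 (margin m) ∪ axisSeg (1 - margin m) 1 ∪
      ⋃ k : Fin (parts m), partMap k.val '' treeSet (segSet r) (levels m) false (rootA m)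

end Vale.Agent.P208

end
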