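import Vale.Agent.P208.Interfaces

/-!
If no rung is stretched more than the whole gadget, the sheets leave the straight line near the
middle rows by a bounded amount, in `m` directions that are apart: there is no room for them.
-/

noncomputable section

open Finset Metric MeasureTheory RealInnerProductSpace

namespace Vale.Agent.P208

namespace Gain

/-- at most `((R + ρ) / ρ) ^ k` points of a ball of radius `R` are `2 ρ` apart -/
lemma packing {k m : ℕ} (p : Fin m → EuclideanSpace ℝ (Fin k)) (c : EuclideanSpace ℝ (Fin k))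
    {R ρ : ℝ} (hR : 0 ≤ R) (hρ : 0 < ρ) (hin : ∀ j, ‖p j - c‖ ≤ R)
    (hsep : ∀ i j, i ≠ j → 2 * ρ ≤ ‖p i - p j‖) : (m : ℝ) * ρ ^ k ≤ (R + ρ) ^ k := by
  set V := volume (ball (0 : EuclideanSpace ℝ (Fin k)) 1)
  have hV : V ≠ 0 := (measure_ball_pos volume 0 one_pos).ne'
  have hV' : V ≠ ⊤ := measure_ball_lt_top.ne
  have hball : ∀ (x : EuclideanSpace ℝ (Fin k)) (r : ℝ), 0 < r →
      volume (ball x r) = ENNReal.ofReal (r ^ k) * V := fun x r hr => by
    rw [Measure.addHaar_ball_of_pos volume x hr, finrank_euclideanSpace_fin]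
  have hdisj : Pairwise (Function.onFun Disjoint fun j => ball (p j) ρ) := fun i j hij =>
    ball_disjoint_ball (by rw [dist_eq_norm]; linarith [hsep i j hij])
  have h : ∑ j, volume (ball (p j) ρ) ≤ volume (ball c (R + ρ)) := by
    rw [← tsum_fintype (L := SummationFilter.unconditional _), ← measure_iUnion hdisj fun _ => measurableSet_ball]
    refine measure_mono (Set.iUnion_subset fun j => ball_subset_ball' ?_)
    rw [dist_eq_norm]; linarith [hin j]
  simp only [hball _ _ hρ, hball _ _ (by linarith : 0 < R + ρ), sum_const, card_univ,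
    Fintype.card_fin, nsmul_eq_mul] at h
  rw [← mul_assoc, ENNReal.mul_le_mul_iff_left hV hV', ← ENNReal.ofReal_natCast,
    ← ENNReal.ofReal_mul (Nat.cast_nonneg m), ENNReal.ofReal_le_ofReal_iff (by positivity)] at h
  exact h

lemma bN_pos {m : ℕ} (hm : Big m) : (0 : ℝ) < bN m := by
  have : 0 < m := lt_of_lt_of_le (by norm_num) hm
  simp [bN]; positivity

lemma hN_le_bN {m : ℕ} (hm : Big m) : hN m ≤ bN m :=
  Nat.pow_le_pow_right (lt_of_lt_of_le (by norm_num) hm) (by norm_num)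

lemma two_le_nN (m : ℕ) : 2 ≤ nN m := by simp only [nN, qN]; omega

lemma nN_le {m : ℕ} (hm : Big m) : nN m ≤ 3 * bN m := by
  have h1 := hN_le_bN hm
  have h2 : 1 ≤ hN m := Nat.one_le_pow _ _ (lt_of_lt_of_le (by norm_num) hm)
  have h3 : m ≤ bN m := Nat.le_self_pow (by norm_num) m
  simp only [nN, qN]
  omega

lemma bRise_eq {m : ℕ} (hm : Big m) {z : ℝ} (hz : 1 ≤ z) :
    bRise m z = ((hN m : ℝ) + z - 1) / bN m := by
  have hh : (1 : ℝ) ≤ hN m := by
    exact_mod_cast Nat.one_le_pow _ _ (lt_of_lt_of_le (by norm_num) hm)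
  refine min_eq_right (div_le_div_of_nonneg_right ?_ (bN_pos hm).le)
  nlinarith [mul_nonneg (sub_nonneg.2 hz) (sub_nonneg.2 hh)]

lemma clamp_sub_le (a b : ℝ) : |max 0 (min 1 a) - max 0 (min 1 b)| ≤ |a - b| := by
  refine (abs_max_sub_max_le_max 0 (min 1 a) 0 (min 1 b)).trans ?_
  rw [sub_self, abs_zero, max_eq_right (abs_nonneg _)]
  refine (abs_min_sub_min_le_max 1 a 1 b).trans ?_
  rw [sub_self, abs_zero, max_eq_right (abs_nonneg _)]

lemma bProf_step {m : ℕ} (hm : Big m) {i : ℕ} (h1 : 1 ≤ i) (h2 : i + 1 < nN m) :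
    |bProf m ((i + 1 : ℕ) : ℝ) - bProf m i| ≤ 1 / bN m := by
  have hi : (1 : ℝ) ≤ i := by exact_mod_cast h1
  have hn : (i : ℝ) + 2 ≤ nN m := by exact_mod_cast h2
  refine (clamp_sub_le _ _).trans ((abs_min_sub_min_le_max _ _ _ _).trans (max_le ?_ ?_))
  · rw [bRise_eq hm (by push_cast; linarith), bRise_eq hm hi, ← sub_div, abs_div,
      abs_of_pos (bN_pos hm)]
    refine le_of_eq (congrArg (· / (bN m : ℝ)) ?_)
    push_cast; norm_num
  · rw [bRise_eq hm (by push_cast; linarith), bRise_eq hm (by linarith), ← sub_div, abs_div,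
      abs_of_pos (bN_pos hm)]
    refine le_of_eq (congrArg (· / (bN m : ℝ)) ?_)
    push_cast; norm_num

lemma bProf_zero {m : ℕ} (hm : Big m) : bProf m 0 = 0 ∧ bProf m (nN m) = 0 := by
  have hh : (1 : ℝ) ≤ hN m := by
    exact_mod_cast Nat.one_le_pow _ _ (lt_of_lt_of_le (by norm_num) hm)
  have h0 : bRise m 0 = 0 := by
    refine (min_eq_left ?_).trans (by simp)
    have := bN_pos hm
    rw [zero_mul, zero_div]
    exact div_nonneg (by linarith) this.le
  constructor <;> apply max_eq_left <;> refine (min_le_right _ _).trans ?_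
  · exact (min_le_left _ _).trans h0.le
  · rw [sub_self]; exact (min_le_right _ _).trans h0.le

lemma bProf_one {m : ℕ} (hm : Big m) :
    |bProf m 1| ≤ hN m / bN m ∧ |bProf m ((nN m - 1 : ℕ) : ℝ)| ≤ hN m / bN m := by
  have h0 : (0 : ℝ) ≤ hN m / bN m := div_nonneg (Nat.cast_nonneg _) (bN_pos hm).le
  have h1 : bRise m 1 ≤ hN m / bN m := (min_le_left _ _).trans (by simp)
  constructor <;> rw [abs_of_nonneg (show (0 : ℝ) ≤ bProf m _ from le_max_left _ _)] <;>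
    refine max_le h0 ((min_le_right _ _).trans ?_)
  · exact (min_le_left _ _).trans h1
  · refine (min_le_right _ _).trans ?_
    rwa [Nat.cast_sub (by linarith [two_le_nN m]), Nat.cast_one, sub_sub_cancel]

/-- the squares of the increments of the profile are small in sum -/
lemma bProf_sq {m : ℕ} (hm : Big m) :
    (∀ i < nN m, (bProf m ((i + 1 : ℕ) : ℝ) - bProf m i) ^ 2 ≤ 1 / 10) ∧
    ∑ i ∈ range (nN m), (bProf m ((i + 1 : ℕ) : ℝ) - bProf m i) ^ 2 ≤ 3 / (m : ℝ) ^ 4 := by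
  have hm0 : (100 : ℝ) ≤ m := by exact_mod_cast hm
  have hmp : (0 : ℝ) < m := by linarith
  obtain ⟨n, hn⟩ : ∃ n, nN m = n + 2 :=
    ⟨nN m - 2, (Nat.sub_add_cancel (two_le_nN m)).symm⟩
  have hjump : (hN m : ℝ) / bN m = 1 / (m : ℝ) ^ 2 := by
    simp only [hN, bN, Nat.cast_pow]; field_simp
  set β : ℕ → ℝ := fun i => (bProf m ((i + 1 : ℕ) : ℝ) - bProf m i) ^ 2
  have hmid : ∀ i < n, β (i + 1) ≤ 1 / (m : ℝ) ^ 12 := fun i hi => by
    have h := bProf_step hm (i := i + 1) (by omega) (by omega)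
    have h2 := pow_le_pow_left₀ (abs_nonneg _) h 2
    rw [sq_abs] at h2
    refine h2.trans (le_of_eq ?_)
    simp only [bN, Nat.cast_pow, div_pow, one_pow]; ring
  obtain ⟨hb0, hbn⟩ := bProf_zero hm
  obtain ⟨hb1, hbn1⟩ := bProf_one hm
  have hfirst : β 0 ≤ 1 / (m : ℝ) ^ 4 := by
    have h2 := pow_le_pow_left₀ (abs_nonneg _) hb1 2
    rw [sq_abs, hjump] at h2
    simp only [β, zero_add, Nat.cast_one, Nat.cast_zero, hb0, sub_zero]
    refine h2.trans (le_of_eq ?_)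
    ring
  have hlast : β (n + 1) ≤ 1 / (m : ℝ) ^ 4 := by
    have h2 := pow_le_pow_left₀ (abs_nonneg _) hbn1 2
    rw [sq_abs, hjump, show nN m - 1 = n + 1 by omega] at h2
    simp only [β]
    rw [show n + 1 + 1 = nN m by omega, hbn, zero_sub, neg_sq]
    refine h2.trans (le_of_eq ?_)
    ring
  have h12 : 1 / (m : ℝ) ^ 12 ≤ 1 / 10 ∧ 1 / (m : ℝ) ^ 4 ≤ 1 / 10 := by
    constructor <;> refine one_div_le_one_div_of_le (by norm_num) ?_ <;>
      exact le_trans (by linarith) (le_self_pow₀ (by linarith) (by norm_num))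
  constructor
  · intro i hi
    rcases i with _ | i
    · exact hfirst.trans h12.2
    · rcases lt_or_eq_of_le (show i ≤ n by omega) with h | rfl
      · exact (hmid i h).trans h12.1
      · exact hlast.trans h12.2
  show ∑ i ∈ range (nN m), β i ≤ _
  rw [hn, sum_range_succ, sum_range_succ']
  have hs : ∑ i ∈ range n, β (i + 1) ≤ 1 / (m : ℝ) ^ 4 := by
    refine (sum_le_sum fun i hi => hmid i (mem_range.1 hi)).trans ?_
    rw [sum_const, card_range, nsmul_eq_mul]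
    have hnle : (n : ℝ) ≤ 3 * (m : ℝ) ^ 6 := by
      have := nN_le hm
      simp only [bN] at this
      exact_mod_cast (show n ≤ 3 * m ^ 6 by omega)
    refine (mul_le_mul_of_nonneg_right hnle (by positivity)).trans ?_
    rw [mul_one_div, div_le_div_iff₀ (by positivity) (by positivity)]
    have : (3 : ℝ) ≤ m ^ 2 := by nlinarith
    calc 3 * (m : ℝ) ^ 6 * m ^ 4 ≤ m ^ 2 * m ^ 6 * m ^ 4 := by gcongr
      _ = _ := by ring
  linarith [show (3 : ℝ) / (m : ℝ) ^ 4 = 1 / m ^ 4 + 1 / m ^ 4 + 1 / m ^ 4 by ring]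

lemma sqrt_step {w δ β D : ℝ} (hw : 0 ≤ w) (hwD : w ≤ 2 * D) (hD : 1 ≤ D) (hδ : 0 ≤ δ)
    (hδ1 : δ ≤ 1) (hβ : β ≤ 1 / 10) :
    Real.sqrt (w ^ 2 + δ) * Real.sqrt (1 + β) ≤ 3 * D := by
  rw [← Real.sqrt_mul (by positivity), Real.sqrt_le_left (by linarith)]
  nlinarith [mul_nonneg hw (sub_nonneg.2 hwD)]

/-- the squares about the straight line, by the squares of the steps -/
lemma spread_le {k n : ℕ} (Δ : ℕ → EuclideanSpace ℝ (Fin k)) (G : EuclideanSpace ℝ (Fin k))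
    {w μ D : ℝ} (hn : (0 : ℝ) < n) (hw : 0 ≤ w) (hμ : 0 ≤ μ) (hwD : w ≤ 2 * D)
    (hGle : ‖G‖ ≤ 4 * D * n) (hGs : ‖(∑ i ∈ range n, Δ i) - G‖ ≤ 2 * μ) (hG : w * n - μ ≤ ‖G‖) :
    ∑ i ∈ range n, ‖Δ i - ((n : ℝ))⁻¹ • G‖ ^ 2 ≤
      ∑ i ∈ range n, ‖Δ i‖ ^ 2 - w ^ 2 * n + 20 * D * μ := by
  set sd := ∑ i ∈ range n, Δ i with hd
  have e : ∑ i ∈ range n, ‖Δ i - ((n : ℝ))⁻¹ • G‖ ^ 2 =
      ∑ i ∈ range n, ‖Δ i‖ ^ 2 - (2 * ⟪sd - G, G⟫ + ‖G‖ ^ 2) / n := by
    simp only [norm_sub_sq_real, sum_add_distrib, sum_sub_distrib, inner_smul_right, norm_smul,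
      ← mul_sum, ← sum_inner, sum_const, card_range, nsmul_eq_mul, ← hd]
    rw [inner_sub_left, real_inner_self_eq_norm_sq, Real.norm_eq_abs, abs_of_pos (inv_pos.2 hn)]
    field_simp
    ring
  have hin : -(8 * D * n * μ) ≤ ⟪sd - G, G⟫ := by
    have h1 := abs_real_inner_le_norm (sd - G) G
    have h2 := mul_le_mul hGs hGle (norm_nonneg _) (by linarith)
    linarith [neg_abs_le ⟪sd - G, G⟫]
  have hG2 : (w * n) ^ 2 - 2 * μ * (w * n) ≤ ‖G‖ ^ 2 := by
    rcases le_total 0 (w * n - μ) with h | h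
    · nlinarith [pow_le_pow_left₀ h hG 2]
    · nlinarith [sq_nonneg ‖G‖, mul_nonneg hw hn.le]
  have hdiv : -(20 * D * μ) + w ^ 2 * n ≤ (2 * ⟪sd - G, G⟫ + ‖G‖ ^ 2) / n := by
    rw [le_div_iff₀ hn]
    nlinarith [mul_le_mul_of_nonneg_left hwD (mul_nonneg hμ hn.le)]
  linarith

/-- few steps of small squares make a short distance -/
lemma short_le {k : ℕ} (a : ℕ → EuclideanSpace ℝ (Fin k)) {p q m : ℕ} {S : ℝ} (hpq : p ≤ q)
    (hqm : q - p ≤ m) (hS : ∑ i ∈ Ico p q, ‖a (i + 1) - a i‖ ^ 2 ≤ S)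
    (hmS : (m : ℝ) * S ≤ (1 / 20) ^ 2) : ‖a q - a p‖ ≤ 1 / 20 := by
  have h2 := sq_sum_le_card_mul_sum_sq (s := Ico p q) (f := fun i => ‖a (i + 1) - a i‖)
  rw [Nat.card_Ico] at h2
  rw [← sum_Ico_sub a hpq]
  refine (norm_sum_le _ _).trans ((pow_le_pow_iff_left₀ (sum_nonneg fun _ _ => norm_nonneg _)
    (by norm_num) two_ne_zero).1 (h2.trans (le_trans ?_ hmS)))
  exact mul_le_mul (Nat.cast_le.2 hqm) hS (sum_nonneg fun _ _ => sq_nonneg _) (Nat.cast_nonneg _)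

/-- the steps of one sheet have small variance about the straight line -/
lemma var_le {k m n : ℕ} {D w μ δ : ℝ} (hm : Big m) (hw : 0 ≤ w) (hwD : w ≤ 2 * D) (hD : 1 ≤ D)
    (hDm : 10 * D ≤ m) (hn0 : (0 : ℝ) < n) (hn6 : (n : ℝ) ≤ 3 * (m : ℝ) ^ 6) (hδ0 : 0 ≤ δ)
    (hδ1 : δ ≤ 1) (hδn : δ * n = 1 / (m : ℝ) ^ 4) (hμ : 0 ≤ μ) (hμm : μ ≤ 1 / (m : ℝ) ^ 16)
    (P : ℕ → EuclideanSpace ℝ (Fin k)) {Q : ℕ → EuclideanSpace ℝ (Fin k)}
    (G : EuclideanSpace ℝ (Fin k)) (hA : ‖P 0 - Q 0‖ ≤ μ) (hB : ‖P n - Q n‖ ≤ μ)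
    (hG : w * n - μ ≤ ‖G‖) (hGdef : G = Q n - Q 0) (hGle : ‖G‖ ≤ 4 * D * n)
    (β : ℕ → ℝ) (hβ0 : ∀ i, 0 ≤ β i) (hβ1 : ∀ i < n, β i ≤ 1 / 10)
    (hβsum : ∑ i ∈ range n, β i ≤ 3 / (m : ℝ) ^ 4)
    (hstep : ∀ i < n, ‖P (i + 1) - P i‖ ≤ Real.sqrt (w ^ 2 + δ) * Real.sqrt (1 + β i) + μ) :
    ∑ i ∈ range n, ‖P (i + 1) - P i - ((n : ℝ))⁻¹ • G‖ ^ 2 ≤ 1 / (4 * (m : ℝ) ^ 2) := by
  have hm0 : (100 : ℝ) ≤ m := by exact_mod_cast hm
  have hsq : ∀ i ∈ range n, ‖P (i + 1) - P i‖ ^ 2 ≤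
      (w ^ 2 + δ) * (1 + β i) + 7 * D * μ := fun i hi => by
    have hi' := mem_range.1 hi
    have h1 := pow_le_pow_left₀ (norm_nonneg _) (hstep i hi') 2
    refine h1.trans ?_
    set Z := Real.sqrt (w ^ 2 + δ)
    have hP : Z * Real.sqrt (1 + β i) ≤ 3 * D :=
      sqrt_step hw hwD hD hδ0 hδ1 (hβ1 i hi')
    have e : (Z * Real.sqrt (1 + β i)) ^ 2 = (w ^ 2 + δ) * (1 + β i) := by
      rw [mul_pow, Real.sq_sqrt (by positivity), Real.sq_sqrt (by linarith [hβ0 i])]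
    rw [add_sq, e]
    have hμD : μ ≤ D := (hμm.trans ((div_le_one (by positivity)).2
      (one_le_pow₀ (by linarith)))).trans hD
    nlinarith [mul_le_mul_of_nonneg_right hP hμ, mul_le_mul_of_nonneg_right hμD hμ]
  have hGs : ‖(P n - P 0) - G‖ ≤ 2 * μ := by
    rw [hGdef, show P n - P 0 - (Q n - Q 0) =
      (P n - Q n) - (P 0 - Q 0) by abel]
    exact (norm_sub_le _ _).trans (by linarith [hA, hB])
  have hdiv := spread_le (fun i => P (i + 1) - P i) G hn0 hw hμ hwD hGle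
    (by rw [sum_range_sub (P)]; exact hGs) hG
  have hsum := sum_le_sum hsq
  simp only [sum_add_distrib, mul_add, ← mul_sum, sum_const, card_range, nsmul_eq_mul,
    mul_one] at hsum
  have h5 : (w ^ 2 + δ) * ∑ i ∈ range n, β i ≤ 15 / 100 / (m : ℝ) ^ 2 := by
    refine (mul_le_mul (show w ^ 2 + δ ≤ (m : ℝ) ^ 2 / 20 by nlinarith)
      (hβsum) (sum_nonneg fun i _ => hβ0 i) (by positivity)).trans (le_of_eq ?_)
    field_simp
    norm_num
  have h6 : (7 * n + 20) * (D * μ) ≤ 1 / (20 * (m : ℝ) ^ 2) := by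
    calc (7 * (n : ℝ) + 20) * (D * μ) ≤ (41 * (m : ℝ) ^ 6) * (m / 10 * (1 / (m : ℝ) ^ 16)) := by
          refine mul_le_mul ?_ (mul_le_mul (by linarith) hμm hμ (by linarith)) (by positivity)
            (by positivity)
          have h1 : (1 : ℝ) ≤ (m : ℝ) ^ 6 := one_le_pow₀ (by linarith)
          linarith
      _ = 41 / 10 / (m : ℝ) ^ 9 := by field_simp
      _ ≤ _ := by
          rw [div_le_div_iff₀ (by positivity) (by positivity)]
          have h7 : (100 : ℝ) ≤ (m : ℝ) ^ 7 := hm0.trans (le_self_pow₀ (by linarith) (by norm_num))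
          nlinarith [mul_le_mul_of_nonneg_left h7 (sq_nonneg (m : ℝ))]
  have h7 : 1 / (m : ℝ) ^ 4 ≤ 1 / (20 * (m : ℝ) ^ 2) := by
    refine one_div_le_one_div_of_le (by positivity) ?_
    nlinarith [mul_le_mul_of_nonneg_right (show (20 : ℝ) ≤ (m : ℝ) ^ 2 by nlinarith)
      (sq_nonneg (m : ℝ))]
  rw [show (1 : ℝ) / (4 * (m : ℝ) ^ 2) = 15 / 100 / (m : ℝ) ^ 2 + 1 / (20 * (m : ℝ) ^ 2) +
    1 / (20 * (m : ℝ) ^ 2) by field_simp; norm_num]
  linarith

end Gain

open Gain in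
theorem gadgetGain_ok : GadgetGain := by
  intro k m D w μ V hok hw hwD hμ hμm hA hB hG hrow hsep hstep
  obtain ⟨hm, hD, hDm, hpack⟩ := hok
  have hm0 : (100 : ℝ) ≤ m := by exact_mod_cast hm
  set n := nN m with hn
  have hn2 : 2 ≤ n := two_le_nN m
  have hn0 : (0 : ℝ) < n := by exact_mod_cast lt_of_lt_of_le (by norm_num) hn2
  have hn6 : (n : ℝ) ≤ 3 * (m : ℝ) ^ 6 := by
    have := nN_le hm
    simp only [bN] at this
    exact_mod_cast this
  set δ := gainDelta m with hδdef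
  have hδn : δ * n = 1 / (m : ℝ) ^ 4 := by
    simp only [hδdef, gainDelta, ← hn]; field_simp
  have hδ0 : 0 ≤ δ := by simp only [hδdef, gainDelta]; positivity
  have hδ1 : δ ≤ 1 := by
    simp only [hδdef, gainDelta, ← hn]
    rw [div_le_one (by positivity)]
    have h1 : (1 : ℝ) ≤ (m : ℝ) ^ 4 := one_le_pow₀ (by linarith)
    have h2 : (1 : ℝ) ≤ n := by exact_mod_cast le_trans (by norm_num) hn2
    nlinarith
  have hμ1 : μ ≤ 1 / 100 := hμm.trans <| one_div_le_one_div_of_le (by norm_num)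
    (hm0.trans (le_self_pow₀ (by linarith) (by norm_num)))
  set G := V none n - V none 0 with hGdef
  set c : EuclideanSpace ℝ (Fin k) := ((n : ℝ))⁻¹ • G with hcdef
  set β : Sheet m → ℕ → ℝ := fun s i =>
    if s.isSome then (bProf m ((i + 1 : ℕ) : ℝ) - bProf m i) ^ 2 else 0 with hβ
  have hβ0 : ∀ s i, 0 ≤ β s i := fun s i => by simp only [hβ]; split <;> positivity
  have hβ1 : ∀ s, ∀ i < n, β s i ≤ 1 / 10 := fun s i hi => by
    simp only [hβ]; split
    · exact (bProf_sq hm).1 i hi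
    · norm_num
  have hβsum : ∀ s, ∑ i ∈ range n, β s i ≤ 3 / (m : ℝ) ^ 4 := fun s => by
    rcases s with _ | j
    · simp [hβ]; positivity
    · simpa [hβ, hn] using (bProf_sq hm).2
  set Z := Real.sqrt (w ^ 2 + δ)
  have hlen : ∀ s, ∀ i < n, ‖V s (i + 1) - V s i‖ ≤ 4 * D := fun s i hi => by
    refine (hstep s i hi).trans ?_
    have := sqrt_step hw hwD hD hδ0 hδ1 (hβ1 s i hi)
    simp only [hβ] at this
    linarith
  have hGle : ‖G‖ ≤ 4 * D * n := by
    rw [hGdef, ← sum_range_sub (V none) n]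
    refine (norm_sum_le _ _).trans ((sum_le_sum fun i hi => hlen none i (mem_range.1 hi)).trans ?_)
    simp only [sum_const, card_range, nsmul_eq_mul]; linarith
  -- the variance of the steps about the straight line
  set S := 1 / (4 * (m : ℝ) ^ 2) with hS
  have hvar : ∀ s, ∑ i ∈ range n, ‖V s (i + 1) - V s i - c‖ ^ 2 ≤ S := fun s =>
    var_le hm hw hwD hD hDm hn0 hn6 hδ0 hδ1 hδn hμ hμm (V s) G (hA s) (hB s) hG hGdef hGle
      (β s) (hβ0 s) (hβ1 s) (hβsum s) (hstep s)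
  -- deviations from the straight line
  set a : Sheet m → ℕ → EuclideanSpace ℝ (Fin k) := fun s z => V s z - (z : ℝ) • c with ha
  have hdev : ∀ s p q, p ≤ q → q ≤ n → q - p ≤ m → ‖a s q - a s p‖ ≤ 1 / 20 := by
    intro s p q hpq hqn hqm
    have hsub : Ico p q ⊆ range n := fun i hi => mem_range.2 ((mem_Ico.1 hi).2.trans_le hqn)
    refine short_le (a s) hpq hqm (S := S) ?_ ?_
    · refine le_trans (le_of_eq (sum_congr rfl fun i _ => ?_))
        ((sum_le_sum_of_subset_of_nonneg hsub fun _ _ _ => sq_nonneg _).trans (hvar s))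
      congr 2
      simp only [ha, Nat.cast_succ, add_smul, one_smul]; abel
    · rw [hS, mul_one_div, div_le_iff₀ (by positivity)]
      nlinarith
  have hdev' : ∀ s (i j : Fin m), ‖a s (rowIdx i) - a s (rowIdx j)‖ ≤ 1 / 20 := by
    intro s i j
    have hlt : ∀ i : Fin m, rowIdx i ≤ n ∧ qN m ≤ rowIdx i ∧ rowIdx i - qN m < m := fun i => by
      simp only [rowIdx, hn, nN]; omega
    obtain ⟨h1, h2, h3⟩ := hlt i
    obtain ⟨h4, h5, h6⟩ := hlt j
    rcases le_total (rowIdx j) (rowIdx i) with h | h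
    · exact hdev s _ _ h h1 (by omega)
    · rw [norm_sub_rev]; exact hdev s _ _ h h4 (by omega)
  have hsame : ∀ (s t : Sheet m) z, a s z - a t z = V s z - V t z := fun s t z => by
    simp only [ha]; abel
  have hm1 : 0 < m := lt_of_lt_of_le (by norm_num) hm
  set j₀ : Fin m := ⟨0, hm1⟩
  have hin : ∀ j : Fin m, ‖a (some j) (rowIdx j) - a none (rowIdx j₀)‖ ≤ D + 1 / 10 := fun j => by
    have h := norm_sub_le_norm_sub_add_norm_sub (a (some j) (rowIdx j)) (a none (rowIdx j))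
      (a none (rowIdx j₀))
    rw [hsame] at h
    linarith [hrow j, hdev' none j j₀]
  have hap : ∀ i j : Fin m, i ≠ j →
      2 * (13 / 20 : ℝ) ≤ ‖a (some i) (rowIdx i) - a (some j) (rowIdx j)‖ := fun i j hij => by
    have h := norm_sub_le_norm_sub_add_norm_sub (a (some j) (rowIdx i)) (a (some j) (rowIdx j))
      (a (some i) (rowIdx i))
    rw [hsame, norm_sub_rev (a (some j) (rowIdx j)) (a (some i) (rowIdx i))] at h
    linarith [hsep i j hij, hdev' (some j) i j]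
  have h := packing _ _ (by linarith : (0 : ℝ) ≤ D + 1 / 10) (by norm_num : (0 : ℝ) < 13 / 20)
    hin hap
  have hle : (D + 1 / 10 + 13 / 20) ^ k ≤ ((10 * D + 10) * (13 / 20)) ^ k :=
    pow_le_pow_left₀ (by linarith) (by linarith) k
  rw [mul_pow] at hle
  have hp : (0 : ℝ) < (13 / 20) ^ k := by positivity
  nlinarith

end Vale.Agent.P208

end
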