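import Vale.Agent.P208.Interfaces

/-!
P208: copies of the finite-dimensional sets at the scales `4 ^ (-m)`, accumulating at the origin
of `ℓ²`, form one doubling set without a bi-Lipschitz image in any Euclidean space.
-/

noncomputable section

open Metric Set RealInnerProductSpace

namespace Vale.Agent.P208

namespace Glue

/-- Real square summable sequences. -/
abbrev H := lp (fun _ : ℕ => ℝ) 2

/-- A coordinate vector. -/
def vec (n : ℕ) : H := lp.single 2 n 1

lemma orthonormal_vec : Orthonormal ℝ vec := by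
  rw [orthonormal_iff_ite]
  intro i j
  rw [vec, lp.inner_single_left]
  by_cases h : i = j
  · subst h; simp [vec]
  · simp [vec, h]

/-- The coordinate of `ℓ²` given to a coordinate of `E m`. -/
def idx (m : ℕ) (i : Fin 2 ⊕ Fin m) : ℕ := (Fintype.equivFin (Fin 2 ⊕ Fin m) i).val + 1

/-- The embedding of `E m`. -/
def emb (m : ℕ) (x : E m) : H := ∑ i, x i • vec (idx m i)

lemma emb_sub (m : ℕ) (x y : E m) : emb m x - emb m y = emb m (x - y) := by
  rw [emb, emb, emb, ← Finset.sum_sub_distrib]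
  exact Finset.sum_congr rfl fun i _ => by rw [PiLp.sub_apply, sub_smul]

lemma norm_emb (m : ℕ) (x : E m) : ‖emb m x‖ = ‖x‖ := by
  have ho : Orthonormal ℝ fun i => vec (idx m i) := orthonormal_vec.comp _ fun i j h =>
    (Fintype.equivFin _).injective (Fin.ext (Nat.succ_injective h))
  have h : ‖emb m x‖ ^ 2 = ‖x‖ ^ 2 := by
    rw [← real_inner_self_eq_norm_sq, emb, ho.inner_sum, EuclideanSpace.real_norm_sq_eq]
    exact Finset.sum_congr rfl fun i _ => by simp [sq]
  exact (pow_left_inj₀ (norm_nonneg _) (norm_nonneg _) two_ne_zero).1 h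

/-- The distance of the `m`-th copy from the origin. -/
def rad (m : ℕ) : ℝ := (1 / 4 : ℝ) ^ m

lemma rad_pos (m : ℕ) : 0 < rad m := by unfold rad; positivity

lemma rad_add_le {m n k : ℕ} (h : m + k ≤ n) : rad n ≤ rad m * (1 / 4) ^ k := by
  rw [rad, rad, ← pow_add]
  exact pow_le_pow_of_le_one (by norm_num) (by norm_num) h

/-- The similarity placing `E m`. -/
def put (m : ℕ) (x : E m) : H := rad m • vec 0 + (rad m / 100) • emb m x

lemma dist_put (m : ℕ) (x y : E m) : dist (put m x) (put m y) = rad m / 100 * dist x y := by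
  rw [dist_eq_norm, dist_eq_norm, put, put, add_sub_add_left_eq_sub, ← smul_sub, emb_sub,
    norm_smul, norm_emb, Real.norm_eq_abs, abs_of_nonneg]
  exact div_nonneg (rad_pos m).le (by norm_num)

/-- The `m`-th copy; there is none below `100`. -/
def block (m : ℕ) : Set H :=
  {z | Big m ∧ ∃ x ∈ segSet (m := m) (rounds m), put m x = z}

/-- The doubling set. -/
def space : Set H := ⋃ m, block m

lemma norm_le_two {K m : ℕ} (hc : SegCovering K) (hm : Big m) {x : E m}
    (hx : x ∈ segSet (m := m) (rounds m)) : ‖x‖ ≤ 2 := by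
  obtain ⟨⟨ht0, ht1⟩, hs⟩ := (hc m (rounds m) hm).1 x hx
  have hthin : thin m ≤ 1 := by
    have hA : 1 ≤ rootA m := by
      have hW : (1 : ℝ) ≤ width m := by
        have : 1 ≤ width m := by
          have hn : 0 < nN m := by unfold nN qN; omega
          have : 0 < slotLen m := by unfold slotLen; omega
          have : 0 < midLen m := Nat.mul_pos (Nat.succ_pos m) this
          unfold width groundLen; omega
        exact_mod_cast this
      exact one_le_mul_of_one_le_of_one_le (one_le_pow₀ (by linarith)) (one_le_pow₀ hW)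
    rcases Nat.eq_zero_or_pos (gridDen m) with h | h
    · simp [thin, h]
    · have : (1 : ℝ) ≤ gridDen m := by exact_mod_cast h
      rw [thin, div_le_one (by positivity)]
      nlinarith
  have hmin : 0 ≤ min (tco x) (1 - tco x) := le_min ht0 (by linarith)
  have h1 : ‖x - tco x • eT‖ ≤ 1 :=
    hs.trans ((mul_le_of_le_one_left hmin hthin).trans ((min_le_left _ _).trans ht1))
  have h2 : ‖tco x • (eT : E m)‖ ≤ 1 := by
    simp [norm_smul, eT, abs_of_nonneg ht0, ht1]
  have h3 := norm_add_le (x - tco x • eT) (tco x • eT)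
  rw [sub_add_cancel] at h3
  linarith

lemma norm_block {K m : ℕ} (hc : SegCovering K) {z : H} (hz : z ∈ block m) :
    49 / 50 * rad m ≤ ‖z‖ ∧ ‖z‖ ≤ 51 / 50 * rad m := by
  obtain ⟨hm, x, hx, rfl⟩ := hz
  have h1 : ‖(rad m / 100) • emb m x‖ ≤ rad m / 50 := by
    rw [norm_smul, norm_emb, Real.norm_eq_abs, abs_of_nonneg (by linarith [rad_pos m])]
    have := norm_le_two hc hm hx
    nlinarith [rad_pos m]
  have h2 : ‖rad m • vec 0‖ = rad m := by
    rw [norm_smul, orthonormal_vec.1, mul_one, Real.norm_eq_abs, abs_of_pos (rad_pos m)]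
  have h3 := norm_add_le (rad m • vec 0) ((rad m / 100) • emb m x)
  have h4 := norm_sub_le (put m x) ((rad m / 100) • emb m x)
  rw [put] at h4 ⊢
  rw [add_sub_cancel_right] at h4
  exact ⟨by linarith, by linarith⟩

/-- A part of a copy in a ball is covered by `K * K` sets of diameter half the radius. -/
lemma cov_block {K m : ℕ} (hc : SegCovering K) (p : H) {r : ℝ} (hr : 0 < r) :
    ∃ C : Fin (K * K) → Set H, block m ∩ closedBall p r ⊆ ⋃ i, C i ∧
      ∀ i, ∀ x ∈ C i, ∀ y ∈ C i, dist x y ≤ r / 2 := by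
  classical
  rcases (block m ∩ closedBall p r).eq_empty_or_nonempty with he | ⟨q, ⟨hm, x₀, hx₀, rfl⟩, hqb⟩
  · exact ⟨fun _ => ∅, by simp [he], by simp⟩
  have hσ : 0 < rad m / 100 := by linarith [rad_pos m]
  set S := segSet (m := m) (rounds m) with hS
  obtain ⟨C, hC, hCd⟩ := (hc m (rounds m) hm).2 x₀ hx₀ (2 * r / (rad m / 100)) (by positivity)
  have hstep : ∀ i, ∃ D : Fin K → Set (E m), S ∩ C i ⊆ ⋃ j, D j ∧
      ∀ j, ∀ a ∈ D j, ∀ b ∈ D j, dist a b ≤ r / (rad m / 100) / 2 := fun i => by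
    rcases (S ∩ C i).eq_empty_or_nonempty with he | ⟨c, hcS, hcC⟩
    · exact ⟨fun _ => ∅, by simp [he], by simp⟩
    obtain ⟨D, hD, hDd⟩ := (hc m (rounds m) hm).2 c hcS (r / (rad m / 100)) (by positivity)
    refine ⟨D, fun a ha => hD ⟨ha.1, mem_closedBall.2 ((hCd i a ha.2 c hcC).trans (le_of_eq ?_))⟩,
      hDd⟩
    ring
  choose D hD hDd using hstep
  refine ⟨fun l => put m '' D (finProdFinEquiv.symm l).1 (finProdFinEquiv.symm l).2, ?_, ?_⟩
  · rintro z ⟨⟨-, a, ha, rfl⟩, hzb⟩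
    have h1 : dist a x₀ ≤ 2 * r / (rad m / 100) := by
      rw [le_div_iff₀ hσ, mul_comm, ← dist_put]
      linarith [dist_triangle_right (put m a) (put m x₀) p, mem_closedBall.1 hzb,
        mem_closedBall.1 hqb]
    obtain ⟨i, hi⟩ := mem_iUnion.1 (hC ⟨ha, mem_closedBall.2 h1⟩)
    obtain ⟨j, hj⟩ := mem_iUnion.1 (hD i ⟨ha, hi⟩)
    exact mem_iUnion.2 ⟨finProdFinEquiv (i, j), a, by simpa using hj, rfl⟩
  · rintro l _ ⟨a, ha, rfl⟩ _ ⟨b, hb, rfl⟩
    rw [dist_put]
    refine (mul_le_mul_of_nonneg_left (hDd _ _ a ha b hb) hσ.le).trans (le_of_eq ?_)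
    field_simp
    exact div_self (rad_pos m).ne'

/-- At most two copies are large in a given ball. -/
lemma few_blocks {K : ℕ} (hc : SegCovering K) (p : H) (r : ℝ) :
    ∃ n : ℕ, space ∩ closedBall p r ⊆
      closedBall 0 (r / 4) ∪ (block n ∪ block (n + 1)) ∩ closedBall p r := by
  classical
  by_cases h : ∃ n, (block n ∩ closedBall p r).Nonempty
  · refine ⟨Nat.find h, ?_⟩
    rintro z ⟨hz, hzb⟩
    obtain ⟨m, hm⟩ := mem_iUnion.1 hz
    have hge : Nat.find h ≤ m := Nat.find_min' h ⟨z, hm, hzb⟩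
    set n := Nat.find h with hn
    rcases Nat.eq_or_lt_of_le hge with he | hlt
    · exact Or.inr ⟨Or.inl (he ▸ hm), hzb⟩
    rcases Nat.eq_or_lt_of_le (Nat.succ_le_of_lt hlt) with he | hlt2
    · exact Or.inr ⟨Or.inr (show z ∈ block n.succ by rw [he]; exact hm), hzb⟩
    left
    rw [mem_closedBall_zero_iff]
    obtain ⟨y, hy, hyb⟩ := Nat.find_spec h
    have h1 := (norm_block hc hy).1
    have h2 := (norm_block hc hm).2
    have h3 : rad m ≤ rad n * (1 / 4) ^ 2 := rad_add_le (by omega)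
    have h4 : ‖y‖ - ‖z‖ ≤ 2 * r := by
      have := norm_sub_norm_le y z
      rw [← dist_eq_norm] at this
      linarith [dist_triangle_right y z p, mem_closedBall.1 hyb, mem_closedBall.1 hzb]
    nlinarith [rad_pos m, rad_pos n]
  · refine ⟨0, ?_⟩
    rintro z ⟨hz, hzb⟩
    obtain ⟨m, hm⟩ := mem_iUnion.1 hz
    exact absurd ⟨m, z, hm, hzb⟩ h

/-- Centres in the set, at most a number of them independent of the ball. -/
lemma doubling {K : ℕ} (hc : SegCovering K) (p : H) (r : ℝ) (hr : 0 < r) :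
    ∃ C : Finset H, C.card ≤ 1 + 2 * (K * K) ∧ ↑C ⊆ space ∧
      space ∩ closedBall p r ⊆ ⋃ c ∈ C, closedBall c (r / 2) := by
  classical
  obtain ⟨n, hn⟩ := few_blocks hc p r
  obtain ⟨C₁, hC₁, hd₁⟩ := cov_block (m := n) hc p hr
  obtain ⟨C₂, hC₂, hd₂⟩ := cov_block (m := n + 1) hc p hr
  let G : Option (Bool × Fin (K * K)) → Set H := fun
    | none => closedBall 0 (r / 4)
    | some (true, i) => C₁ i
    | some (false, i) => C₂ i
  have hG : ∀ o, ∀ x ∈ G o, ∀ y ∈ G o, dist x y ≤ r / 2 := by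
    rintro (_ | ⟨_ | _, i⟩) x hx y hy
    · linarith [dist_triangle_right x y (0 : H), mem_closedBall.1 hx, mem_closedBall.1 hy]
    · exact hd₂ i x hx y hy
    · exact hd₁ i x hx y hy
  have hcov : space ∩ closedBall p r ⊆ ⋃ o, G o := fun z hz => by
    rcases hn hz with h | ⟨h | h, hb⟩
    · exact mem_iUnion.2 ⟨none, h⟩
    · obtain ⟨i, hi⟩ := mem_iUnion.1 (hC₁ ⟨h, hb⟩)
      exact mem_iUnion.2 ⟨some (true, i), hi⟩
    · obtain ⟨i, hi⟩ := mem_iUnion.1 (hC₂ ⟨h, hb⟩)
      exact mem_iUnion.2 ⟨some (false, i), hi⟩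
  let S := Finset.univ.filter fun o => (space ∩ G o).Nonempty
  let g : {o // o ∈ S} → H := fun o => (Finset.mem_filter.1 o.2).2.some
  refine ⟨S.attach.image g, ?_, ?_, fun z hz => ?_⟩
  · refine Finset.card_image_le.trans ((Finset.card_attach (s := S)).trans_le
      ((Finset.card_filter_le _ _).trans (le_of_eq ?_)))
    simp; ring
  · intro z hz
    obtain ⟨o, -, rfl⟩ := Finset.mem_image.1 (Finset.mem_coe.1 hz)
    exact (Finset.mem_filter.1 o.2).2.some_mem.1
  obtain ⟨o, ho⟩ := mem_iUnion.1 (hcov hz)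
  have hoS : o ∈ S := Finset.mem_filter.2 ⟨Finset.mem_univ _, z, hz.1, ho⟩
  refine mem_iUnion₂.2 ⟨g ⟨o, hoS⟩, Finset.mem_image_of_mem _ (Finset.mem_attach _ _),
    mem_closedBall.2 ?_⟩
  exact hG o z ho _ (Finset.mem_filter.1 hoS).2.some_mem.2

/-- No bi-Lipschitz map into a Euclidean space. -/
lemma no_embedding (hf : SegFalse) (k : ℕ) (D : ℝ) :
    ¬ ∃ (a : ℝ) (f : space → EuclideanSpace ℝ (Fin k)), 0 < a ∧
      ∀ x y : space, a * dist x y ≤ dist (f x) (f y) ∧ dist (f x) (f y) ≤ D * a * dist x y := by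
  classical
  rintro ⟨a, f, ha, hfl⟩
  set D' := max D 1
  obtain ⟨m, hm⟩ := exists_nat_gt (max (max 100 (10 * D')) ((10 * D' + 10) ^ k))
  simp only [max_lt_iff] at hm
  have hm0 : Big m := by
    have : (100 : ℕ) ≤ m := by exact_mod_cast hm.1.1.le
    exact this
  have hσ : 0 < a * (rad m / 100) := mul_pos ha (by linarith [rad_pos m])
  let g : E m → EuclideanSpace ℝ (Fin k) := fun x =>
    if h : x ∈ segSet (m := m) (rounds m)
    then (a * (rad m / 100))⁻¹ • f ⟨put m x, mem_iUnion.2 ⟨m, hm0, x, h, rfl⟩⟩ else 0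
  refine hf k m D' g ⟨hm0, le_max_right _ _, hm.1.2.le, hm.2⟩ fun x hx y hy => ?_
  simp only [g, dif_pos hx, dif_pos hy, dist_smul₀, Real.norm_eq_abs, abs_inv,
    abs_of_pos hσ]
  have h := hfl ⟨put m x, mem_iUnion.2 ⟨m, hm0, x, hx, rfl⟩⟩
    ⟨put m y, mem_iUnion.2 ⟨m, hm0, y, hy, rfl⟩⟩
  rw [Subtype.dist_eq] at h
  simp only [dist_put] at h
  constructor
  · rw [le_inv_mul_iff₀ hσ]; linarith [h.1]
  · rw [inv_mul_le_iff₀ hσ]
    refine h.2.trans (le_trans (mul_le_mul_of_nonneg_right (mul_le_mul_of_nonneg_right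
      (le_max_left D 1) ha.le) (mul_nonneg (by linarith [rad_pos m]) dist_nonneg))
      (le_of_eq ?_))
    ring

end Glue

/-- Module `Glue`: the sets at all scales give the negative answer. -/
theorem langPlaut_of {K : ℕ} (hc : SegCovering K) (hf : SegFalse) : LangPlautNegative :=
  ⟨Glue.space, ⟨1 + 2 * (K * K), fun p _ r hr => Glue.doubling hc p r hr⟩,
    fun k D => Glue.no_embedding hf k D⟩

end Vale.Agent.P208

end
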