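import Mathlib

/-!
P208, generic inequalities: packing in a Euclidean space, the weighted variance of increments
about their linear interpolation, and straightness of nearly saturated paths.
-/

open MeasureTheory Metric Finset

namespace Vale.Agent.P208.Ineq

/-- Points of a ball of radius `R` at mutual distance at least `1` number at most `(2R+1)^k`. -/
theorem pack {k m : ℕ} (x : Fin m → EuclideanSpace ℝ (Fin k)) {R : ℝ} (hR : 0 ≤ R)
    (hx : ∀ i, ‖x i‖ ≤ R) (hsep : ∀ i j, i ≠ j → 1 ≤ ‖x i - x j‖) :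
    (m : ℝ) ≤ (2 * R + 1) ^ k := by
  rcases Nat.eq_zero_or_pos k with rfl | hk
  · have : Subsingleton (EuclideanSpace ℝ (Fin 0)) := by infer_instance
    rcases le_or_gt m 1 with h | h
    · simpa using (show (m : ℝ) ≤ 1 by exact_mod_cast h)
    · have := hsep ⟨0, by omega⟩ ⟨1, by omega⟩ (by simp)
      simp [Subsingleton.elim (x ⟨0, by omega⟩) (x ⟨1, by omega⟩)] at this
      linarith
  have : Nonempty (Fin k) := ⟨⟨0, hk⟩⟩
  have hdisj : Pairwise (Function.onFun Disjoint fun i => ball (x i) (1 / 2 : ℝ)) := fun i j hij =>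
    ball_disjoint_ball (by rw [dist_eq_norm]; linarith [hsep i j hij])
  have hsub : (⋃ i, ball (x i) (1 / 2 : ℝ)) ⊆ ball 0 (R + 1 / 2) := by
    refine Set.iUnion_subset fun i z hz => ?_
    rw [mem_ball, dist_eq_norm] at hz
    rw [mem_ball_zero_iff]
    have h1 := norm_le_norm_add_norm_sub' z (x i)
    linarith [hx i]
  set v := volume (ball (0 : EuclideanSpace ℝ (Fin k)) 1) with hv
  have hv0 : v ≠ 0 := (measure_ball_pos volume 0 one_pos).ne'
  have hvt : v ≠ ⊤ := measure_ball_lt_top.ne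
  have h := measure_mono (μ := volume) hsub
  rw [measure_iUnion hdisj (fun i => measurableSet_ball), tsum_fintype] at h
  simp only [Measure.addHaar_ball volume _ (by norm_num : (0 : ℝ) ≤ 1 / 2),
    Measure.addHaar_ball volume _ (by linarith : (0 : ℝ) ≤ R + 1 / 2), finrank_euclideanSpace_fin,
    Finset.sum_const, Finset.card_univ, Fintype.card_fin, nsmul_eq_mul, ← hv, ← mul_assoc] at h
  rw [ENNReal.mul_le_mul_iff_left hv0 hvt] at h
  have h' : (m : ℝ) * (1 / 2) ^ k ≤ (R + 1 / 2) ^ k := by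
    have := ENNReal.toReal_mono (by simp) h
    rwa [ENNReal.toReal_mul, ENNReal.toReal_natCast, ENNReal.toReal_ofReal (by positivity),
      ENNReal.toReal_ofReal (by positivity)] at this
  rw [show (2 * R + 1) = (R + 1 / 2) / (1 / 2) by ring, div_pow, le_div_iff₀ (by positivity)]
  exact h'

variable {E : Type} [NormedAddCommGroup E] [InnerProductSpace ℝ E]

/-- Weighted variance of the increments about the linear interpolation. -/
theorem variance {ι : Type} (s : Finset ι) (D : ι → E) (l : ι → ℝ) (c n : ℝ)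
    (hl : ∀ i ∈ s, 0 < l i) (hD : ∀ i ∈ s, ‖D i‖ ^ 2 ≤ c * l i ^ 2) :
    ∑ i ∈ s, l i * ‖(l i)⁻¹ • D i - n⁻¹ • ∑ j ∈ s, D j‖ ^ 2 ≤
      c * ∑ i ∈ s, l i -
        (2 * n⁻¹ - (∑ i ∈ s, l i) * n⁻¹ ^ 2) * ‖∑ j ∈ s, D j‖ ^ 2 := by
  set G := ∑ j ∈ s, D j with hG
  have h1 : ∀ i ∈ s, l i * ‖(l i)⁻¹ • D i - n⁻¹ • G‖ ^ 2 ≤
      c * l i - 2 * n⁻¹ * inner ℝ (D i) G + n⁻¹ ^ 2 * ‖G‖ ^ 2 * l i := by
    intro i hi
    have h0 := hl i hi
    rw [norm_sub_sq_real, norm_smul, norm_smul, inner_smul_left, inner_smul_right,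
      Real.norm_eq_abs, abs_of_pos (inv_pos.2 h0), mul_pow, mul_pow, Real.norm_eq_abs, sq_abs]
    simp only [RCLike.conj_to_real]
    have h2 : l i * ((l i)⁻¹ ^ 2 * ‖D i‖ ^ 2) ≤ c * l i := by
      rw [show l i * ((l i)⁻¹ ^ 2 * ‖D i‖ ^ 2) = ‖D i‖ ^ 2 / l i by field_simp]
      rw [div_le_iff₀ h0]
      linarith [hD i hi]
    have e : l i * (2 * ((l i)⁻¹ * (n⁻¹ * inner ℝ (D i) G))) = 2 * n⁻¹ * inner ℝ (D i) G := by
      field_simp
    linarith
  refine (sum_le_sum h1).trans (le_of_eq ?_)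
  rw [sum_add_distrib, sum_sub_distrib, ← mul_sum, ← mul_sum, ← mul_sum,
    ← sum_inner, ← hG, real_inner_self_eq_norm_sq]
  ring

/-- A block of increments is close to its share. -/
theorem sum_close {ι : Type} (s t : Finset ι) (hts : t ⊆ s) (D : ι → E) (l : ι → ℝ) (v : E)
    (hl : ∀ i ∈ s, 0 < l i) :
    ‖∑ i ∈ t, D i - (∑ i ∈ t, l i) • v‖ ^ 2 ≤
      (∑ i ∈ t, l i) * ∑ i ∈ s, l i * ‖(l i)⁻¹ • D i - v‖ ^ 2 := by
  have e : ∑ i ∈ t, D i - (∑ i ∈ t, l i) • v = ∑ i ∈ t, l i • ((l i)⁻¹ • D i - v) := by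
    rw [sum_smul, ← sum_sub_distrib]
    refine sum_congr rfl fun i hi => ?_
    rw [smul_sub, smul_smul, mul_inv_cancel₀ (hl i (hts hi)).ne', one_smul]
  rw [e]
  set a := fun i => (l i)⁻¹ • D i - v
  have h1 : ‖∑ i ∈ t, l i • a i‖ ≤ ∑ i ∈ t, l i * ‖a i‖ :=
    (norm_sum_le _ _).trans (sum_le_sum fun i hi => by
      rw [norm_smul, Real.norm_eq_abs, abs_of_pos (hl i (hts hi))])
  refine (pow_le_pow_left₀ (norm_nonneg _) h1 2).trans ?_
  refine le_trans (sum_sq_le_sum_mul_sum_of_sq_le_mul t (f := fun i => l i)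
    (g := fun i => l i * ‖a i‖ ^ 2) (fun i hi => (hl i (hts hi)).le)
    (fun i hi => mul_nonneg (hl i (hts hi)).le (sq_nonneg _)) fun i _ => le_of_eq (by ring)) ?_
  exact mul_le_mul_of_nonneg_left
    (sum_le_sum_of_subset_of_nonneg hts fun i hi _ => mul_nonneg (hl i hi).le (sq_nonneg _))
    (sum_nonneg fun i hi => (hl i (hts hi)).le)

/-- Nearly saturated paths are nearly straight on every sub-block. -/
theorem block {ι : Type} (s t : Finset ι) (hts : t ⊆ s) (v : ι → E) (l : ι → ℝ) (c Δ : ℝ)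
    (e : E) (he : ‖e‖ ≤ 1) (hc : 0 ≤ c) (hl : ∀ i ∈ s, 0 ≤ l i) (hv : ∀ i ∈ s, ‖v i‖ ≤ c * l i)
    (hchord : c * ∑ i ∈ s, l i - Δ ≤ inner ℝ (∑ i ∈ s, v i) e) :
    ‖∑ i ∈ t, v i - (c * ∑ i ∈ t, l i) • e‖ ^ 2 ≤ 2 * c * (∑ i ∈ t, l i) * Δ := by
  set L := ∑ i ∈ t, l i with hL
  have hL0 : 0 ≤ L := sum_nonneg fun i hi => hl i (hts hi)
  have hn : ‖∑ i ∈ t, v i‖ ≤ c * L :=
    (norm_sum_le _ _).trans ((sum_le_sum fun i hi => hv i (hts hi)).trans (le_of_eq (mul_sum _ _ _).symm))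
  have hrest : ∀ i ∈ s, inner ℝ (v i) e ≤ c * l i := fun i hi =>
    (real_inner_le_norm _ _).trans
      ((mul_le_of_le_one_right (norm_nonneg _) he).trans (hv i hi))
  have hi : c * L - Δ ≤ inner ℝ (∑ i ∈ t, v i) e := by
    classical
    have h1 : inner ℝ (∑ i ∈ s \ t, v i) e ≤ c * ∑ i ∈ s \ t, l i := by
      rw [sum_inner, mul_sum]
      exact sum_le_sum fun i hi => hrest i (mem_sdiff.1 hi).1
    have h2 := sum_sdiff hts (f := v)
    have h3 := sum_sdiff hts (f := l)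
    rw [← h2, ← h3, inner_add_left, mul_add] at hchord
    linarith
  rw [norm_sub_sq_real, norm_smul, inner_smul_right, Real.norm_eq_abs,
    abs_of_nonneg (mul_nonneg hc hL0), mul_pow]
  have hsq : ‖∑ i ∈ t, v i‖ ^ 2 ≤ (c * L) ^ 2 := pow_le_pow_left₀ (norm_nonneg _) hn 2
  have he2 : ‖e‖ ^ 2 ≤ 1 := pow_le_one₀ (norm_nonneg _) he
  nlinarith [mul_le_mul_of_nonneg_left hi (mul_nonneg hc hL0),
    mul_le_mul_of_nonneg_left he2 (sq_nonneg (c * L))]

end Vale.Agent.P208.Ineq
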