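import Vale.Agent.P208.Defs

/-!
Interfaces of the modules of the disproof of the Lang-Plaut question.
-/

noncomputable section

open Finset Metric RealInnerProductSpace

namespace Vale.Agent.P208

/-- every ball centred in `s` is covered by `K` sets of diameter at most half its radius -/
def Cov {X : Type*} [PseudoMetricSpace X] (K : ℕ) (s : Set X) : Prop :=
  ∀ p ∈ s, ∀ r : ℝ, 0 < r → ∃ C : Fin K → Set X,
    s ∩ closedBall p r ⊆ ⋃ i, C i ∧ ∀ i, ∀ x ∈ C i, ∀ y ∈ C i, dist x y ≤ r / 2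

/-- every ball is covered by `K` sets of diameter at most a tenth of its radius -/
def SkCov {X : Type*} [PseudoMetricSpace X] (K : ℕ) (S : Set X) : Prop :=
  ∀ p : X, ∀ r : ℝ, 0 < r → ∃ C : Fin K → Set X,
    S ∩ closedBall p r ⊆ ⋃ i, C i ∧ ∀ i, ∀ x ∈ C i, ∀ y ∈ C i, dist x y ≤ r / 10

/-- doubling of a union of thin children around a skeleton, without accumulation -/
def UnionCovering : Prop :=
  ∀ (X : Type) [PseudoMetricSpace X] (ι : Type) (S : Set X) (Y : ι → Set X) (H : ι → X → ℝ)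
    (K : ℕ),
    SkCov K S →
    (∀ i x, x ∈ Y i → 0 ≤ H i x) →
    (∀ i x, x ∈ Y i → ∃ y ∈ S, dist x y ≤ H i x / 120) →
    (∀ i x y, x ∈ Y i → y ∈ Y i → H i x ≤ H i y + dist x y) →
    (∀ i j x y, i ≠ j → x ∈ Y i → y ∈ Y j → H i x ≤ dist x y) →
    (∀ i, Cov K (Y i)) →
    Cov K (⋃ i, Y i)

/-- large enough parameter -/
def Big (m : ℕ) : Prop := 100 ≤ m

/-- admissible aspect at the given level -/
def AOk (m l : ℕ) (A : ℝ) : Prop :=
  (2 * width m : ℝ) ^ l * (width m : ℝ) ^ 2 ≤ A ∧ A ≤ rootA m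

/-- time coordinate -/
def tco {m : ℕ} (x : E m) : ℝ := x (Sum.inl 0)

/-- the set is inside a thin spindle around the unit segment -/
def Thin {m : ℕ} (S : Set (E m)) : Prop :=
  ∀ x ∈ S, tco x ∈ Set.Icc (0 : ℝ) 1 ∧ ‖x - tco x • eT‖ ≤ thin m * min (tco x) (1 - tco x)

/-- shape of a gadget -/
def TreeShape {m : ℕ} (cell : Bool) (A : ℝ) (x : E m) : Prop :=
  tco x ∈ Set.Icc (0 : ℝ) (A * width m) ∧
    if cell then ∃ z ∈ Set.Icc (0 : ℝ) (nN m),
        ‖x - tco x • eT - z • eZ‖ ≤ 2 * tau0 m (tco x / A)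
      else ‖x - tco x • eT‖ ≤ 2 * nN m * tau0 m (tco x / A)

/-- skeleton of a gadget: a plane, the sheets over it and the rows -/
def skel (m : ℕ) (A : ℝ) : Set (E m) :=
  {x | ∃ t z : ℝ, x = t • eT + z • eZ ∨
    (∃ j : Fin m, x = t • eT + z • eZ + (bProf m z * tauS (some j) (t / A)) • eL j) ∨
    ∃ j : Fin m, z = rowIdx j * tau0 m (t / A) ∧
      x = t • eT + z • eZ + tauRow m (t / A) • eL j}

/-- the skeleton is doubling, uniformly -/
def SkelCovering (K : ℕ) : Prop :=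
  ∀ (m : ℕ) (A : ℝ), Big m → 1 ≤ A → SkCov K (skel m A)

/-- pieces lie on the skeleton -/
def PieceSkel : Prop :=
  ∀ (m : ℕ) (A : ℝ) (cell : Bool) (w : Wire m) (k : ℕ) (c : ℝ), Big m → 1 ≤ A → k < width m →
    c ∈ Set.Icc (0 : ℝ) 1 →
    wirePt A cell w (k + c) = (1 - c) • wirePt A cell w k + c • wirePt A cell w ((k + 1 : ℕ) : ℝ) ∧
    wirePt A cell w (k + c) ∈ skel m A

/-- distinct pieces over one interval are apart, in proportion to the distance to its ends -/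
def PieceSep : Prop :=
  ∀ (m : ℕ) (A : ℝ) (cell : Bool) (w w' : Wire m) (k : ℕ) (c : ℝ), Big m → 1 ≤ A → k < width m →
    c ∈ Set.Icc (0 : ℝ) 1 → pieceOf A cell w k ≠ pieceOf A cell w' k →
    min c (1 - c) / gridDen m ≤ ‖wirePt A cell w (k + c) - wirePt A cell w' (k + c)‖

/-- in a window all wires are constant and those not owned are apart from the rung -/
def StripSep : Prop :=
  ∀ (m : ℕ) (A : ℝ) (cell : Bool) (s : Sheet m) (i : Fin (nN m)) (w : Wire m) (c d : ℝ),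
    Big m → 1 ≤ A → c ∈ Set.Icc (0 : ℝ) 1 → d ∈ Set.Icc (0 : ℝ) 1 →
    ¬ Owned A cell (pieceOf A cell w (winStart s i)) →
    1 / (2 * (m : ℝ) ^ 2) ≤
      ‖wirePt A cell w (winStart s i + c) -
        ((1 - d) • wirePt A cell (.lane s i.castSucc) (winStart s i + c) +
          d • wirePt A cell (.lane s i.succ) (winStart s i + c))‖

/-- doubling of gadgets, given doubling of the segment set -/
def TreeCovering (K : ℕ) : Prop :=
  ∀ (m : ℕ) (S : Set (E m)) (l : ℕ) (cell : Bool) (A : ℝ),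
    Big m → AOk m l A → Thin S → Cov K S → Cov K (treeSet S l cell A)

/-- gadgets keep to their shape -/
def TreeShaped : Prop :=
  ∀ (m : ℕ) (S : Set (E m)) (l : ℕ) (cell : Bool) (A : ℝ),
    Big m → AOk m l A → Thin S → ∀ x ∈ treeSet S l cell A, TreeShape cell A x

/-- the segment sets are thin and uniformly doubling -/
def SegCovering (K : ℕ) : Prop :=
  ∀ (m r : ℕ), Big m → Thin (segSet (m := m) r) ∧ Cov K (segSet (m := m) r)

/-- bi-Lipschitz with lower constant one -/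
def Bilip {X F : Type*} [PseudoMetricSpace X] [PseudoMetricSpace F] (D : ℝ) (s : Set X)
    (f : X → F) : Prop :=
  ∀ x ∈ s, ∀ y ∈ s, dist x y ≤ dist (f x) (f y) ∧ dist (f x) (f y) ≤ D * dist x y

/-- every similar copy of `S` inside `X` is stretched at most `c` -/
def CopyBound {m k : ℕ} (S X : Set (E m)) (f : E m → EuclideanSpace ℝ (Fin k)) (c : ℝ) : Prop :=
  ∀ (p : E m) (σ : ℝ) (U : E m ≃ₗᵢ[ℝ] E m), 0 < σ → (fun x => p + σ • U x) '' S ⊆ X →
    ‖f (p + σ • U eT) - f p‖ ≤ c * σ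

/-- gain per level -/
def gainDelta (m : ℕ) : ℝ := 1 / ((m : ℝ) ^ 4 * nN m)

/-- conditions linking the dimension, the distortion and the parameter -/
def DimOk (k m : ℕ) (D : ℝ) : Prop :=
  Big m ∧ 1 ≤ D ∧ 10 * D ≤ m ∧ (10 * D + 10) ^ k < (m : ℝ)

/-- one saturated direction contradicts a bounded transverse stretch after enough levels -/
def TreeFalse : Prop :=
  ∀ (k m : ℕ) (D : ℝ) (S : Set (E m)) (l : ℕ) (cell : Bool) (A u w ε : ℝ)
    (f : E m → EuclideanSpace ℝ (Fin k)) (e : EuclideanSpace ℝ (Fin k)),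
    DimOk k m D → AOk m l A → (0 : E m) ∈ S → eT ∈ S →
    Bilip D (treeSet S l cell A) f → CopyBound S (treeSet S l cell A) f (u + etaR m) →
    0 ≤ u → u ≤ D → ‖e‖ ≤ 1 → 0 ≤ ε → ε * (A * width m) ≤ tol m → 0 ≤ w →
    D ^ 2 < w ^ 2 + l * gainDelta m →
    u * (A * width m) - ε ≤
      ⟪f (wirePt A cell (.lane none 0) (width m)) - f (wirePt A cell (.lane none 0) 0), e⟫ →
    (cell = false → w = 0) →
    (cell = true →
      u * (A * width m) - ε ≤
        ⟪f (wirePt A cell .top (width m)) - f (wirePt A cell .top 0), e⟫ ∧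
      w * nN m ≤ ‖f (wirePt A cell .top 0) - f (wirePt A cell (.lane none 0) 0)‖) →
    False

/-- the last round is not embeddable -/
def SegFalse : Prop :=
  ∀ (k m : ℕ) (D : ℝ) (f : E m → EuclideanSpace ℝ (Fin k)),
    DimOk k m D → Bilip D (segSet (m := m) (rounds m)) f → False

/-- paths with almost no excess are almost straight on every straight block -/
def BlockRigid : Prop :=
  ∀ (k : ℕ) (N a b : ℕ) (x : ℕ → EuclideanSpace ℝ (Fin k)) (len : ℕ → ℝ) (u η ε T : ℝ)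
    (e : EuclideanSpace ℝ (Fin k)),
    a ≤ b → b ≤ N → 0 ≤ u → 0 ≤ η → 0 ≤ ε → ‖e‖ ≤ 1 →
    (∀ i < N, 0 ≤ len i) →
    (∀ i < N, ‖x (i + 1) - x i‖ ≤ (u + η) * len i) →
    u * T - ε ≤ ⟪x N - x 0, e⟫ →
    T ≤ ∑ i ∈ range N, len i →
    ‖x b - x a - (u * ∑ i ∈ Ico a b, len i) • e‖ ^ 2 ≤
      2 * u * (∑ i ∈ Ico a b, len i) *
          (ε + (u + η) * ((∑ i ∈ range N, len i) - T) + η * T) +
        (2 * u * η + η ^ 2) * (∑ i ∈ Ico a b, len i) ^ 2

/-- the gain of one gadget -/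
def GadgetGain : Prop :=
  ∀ (k m : ℕ) (D w μ : ℝ) (V : Sheet m → ℕ → EuclideanSpace ℝ (Fin k)),
    DimOk k m D → 0 ≤ w → w ≤ 2 * D → 0 ≤ μ → μ ≤ 1 / (m : ℝ) ^ 16 →
    (∀ s, ‖V s 0 - V none 0‖ ≤ μ) →
    (∀ s, ‖V s (nN m) - V none (nN m)‖ ≤ μ) →
    w * nN m - μ ≤ ‖V none (nN m) - V none 0‖ →
    (∀ j, ‖V (some j) (rowIdx j) - V none (rowIdx j)‖ ≤ D + μ) →
    (∀ i j, i ≠ j → 7 / 5 - μ ≤ ‖V (some j) (rowIdx i) - V (some i) (rowIdx i)‖) →
    (∀ (s : Sheet m) (i : ℕ), i < nN m →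
      ‖V s (i + 1) - V s i‖ ≤
        Real.sqrt (w ^ 2 + gainDelta m) *
            Real.sqrt (1 + (if s.isSome then (bProf m ((i + 1 : ℕ) : ℝ) - bProf m i) ^ 2 else 0)) +
          μ) →
    False

/-- the negative answer to the question of Lang and Plaut -/
def LangPlautNegative : Prop :=
  ∃ s : Set (lp (fun _ : ℕ => ℝ) 2),
    (∃ K : ℕ, ∀ p ∈ s, ∀ r : ℝ, 0 < r → ∃ C : Finset (lp (fun _ : ℕ => ℝ) 2),
      C.card ≤ K ∧ ↑C ⊆ s ∧ s ∩ closedBall p r ⊆ ⋃ c ∈ C, closedBall c (r / 2)) ∧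
    ∀ (k : ℕ) (D : ℝ), ¬ ∃ (a : ℝ) (f : s → EuclideanSpace ℝ (Fin k)), 0 < a ∧
      ∀ x y : s, a * dist x y ≤ dist (f x) (f y) ∧ dist (f x) (f y) ≤ D * a * dist x y

end Vale.Agent.P208

end
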