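import Vale.Agent.P208.Interfaces

/-!
A path that stretches almost maximally between its ends does so, almost in a straight line, on
every block of its steps.
-/

noncomputable section

open Finset RealInnerProductSpace

namespace Vale.Agent.P208

theorem blockRigid_ok : BlockRigid := by
  intro k N a b x len u η ε T e hab hbN hu hη hε he hlen hstep hend _
  set Δ : ℕ → EuclideanSpace ℝ (Fin k) := fun i => x (i + 1) - x i with hΔ
  set l := ∑ i ∈ Ico a b, len i with hl
  set L := ∑ i ∈ range N, len i with hL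
  have hl0 : 0 ≤ l := sum_nonneg fun i hi => hlen i ((mem_Ico.1 hi).2.trans_le hbN)
  have hy : ∑ i ∈ Ico a b, Δ i = x b - x a := sum_Ico_sub x hab
  have hsub : Ico a b ⊆ range N := fun i hi => mem_range.2 ((mem_Ico.1 hi).2.trans_le hbN)
  have hnorm : ‖x b - x a‖ ≤ (u + η) * l := by
    rw [← hy, mul_sum]
    exact (norm_sum_le _ _).trans (sum_le_sum fun i hi => hstep i (mem_range.1 (hsub hi)))
  have hout : ⟪∑ i ∈ range N \ Ico a b, Δ i, e⟫ ≤ (u + η) * (L - l) := by
    have hLl : L - l = ∑ i ∈ range N \ Ico a b, len i := by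
      rw [hL, hl, ← sum_sdiff hsub]; ring
    rw [hLl, sum_inner, mul_sum]
    refine sum_le_sum fun i hi => ?_
    have hi' : i < N := mem_range.1 (mem_sdiff.1 hi).1
    calc ⟪Δ i, e⟫ ≤ ‖Δ i‖ * ‖e‖ := real_inner_le_norm _ _
      _ ≤ ‖Δ i‖ * 1 := mul_le_mul_of_nonneg_left he (norm_nonneg _)
      _ ≤ _ := by rw [mul_one]; exact hstep i hi'
  have hsplit : ⟪x N - x 0, e⟫ =
      ⟪∑ i ∈ range N \ Ico a b, Δ i, e⟫ + ⟪x b - x a, e⟫ := by
    rw [← inner_add_left, ← hy, sum_sdiff hsub, sum_range_sub]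
  set P := ⟪x b - x a, e⟫
  set E := ε + (u + η) * (L - T) + η * T with hE
  have hP : (u + η) * l - E ≤ P := by rw [hE]; linarith
  rw [norm_sub_sq_real, inner_smul_right, norm_smul, Real.norm_eq_abs, abs_of_nonneg
    (mul_nonneg hu hl0)]
  have h1 : ‖x b - x a‖ ^ 2 ≤ ((u + η) * l) ^ 2 := pow_le_pow_left₀ (norm_nonneg _) hnorm 2
  have h2 : (u * l * ‖e‖) ^ 2 ≤ (u * l * 1) ^ 2 :=
    pow_le_pow_left₀ (by positivity) (mul_le_mul_of_nonneg_left he (mul_nonneg hu hl0)) 2
  have h3 : u * l * ((u + η) * l - E) ≤ u * l * P := mul_le_mul_of_nonneg_left hP (mul_nonneg hu hl0)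
  have h4 : 0 ≤ u * η * l ^ 2 := by positivity
  show _ - 2 * (u * l * P) + _ ≤ 2 * u * l * E + (2 * u * η + η ^ 2) * l ^ 2
  nlinarith

end Vale.Agent.P208

end
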