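import Vale.Agent.P208.Basic

/-!
The skeleton of a gadget: its covering number, and separation of the pieces.
-/

noncomputable section

open Finset Metric

namespace Vale.Agent.P208

variable {m : ℕ}

/-! ### Coordinates -/

lemma abs_apply_le_norm (x : E m) (i : Fin 2 ⊕ Fin m) : |x i| ≤ ‖x‖ :=
  (Real.norm_eq_abs _) ▸ PiLp.norm_apply_le x i

lemma wirePt_t (A : ℝ) (cell : Bool) (w : Wire m) (x : ℝ) :
    wirePt A cell w x (Sum.inl 0) = A * x := tco_wirePt A cell w x

lemma wireL_z (w : Wire m) (x : ℝ) : (wireL w x) (Sum.inl 1) = 0 := by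
  rcases w with ⟨_ | j, i⟩ | j | _ <;> simp [wireL]

lemma wirePt_z (A : ℝ) (cell : Bool) (w : Wire m) (x : ℝ) :
    wirePt A cell w x (Sum.inl 1) = wireZ cell w x := by
  simp [wirePt, wireL_z]

lemma wirePt_l (A : ℝ) (cell : Bool) (w : Wire m) (x : ℝ) (p : Fin m) :
    wirePt A cell w x (Sum.inr p) = wireL w x (Sum.inr p) := by
  simp [wirePt]

/-! ### Profiles on unit intervals -/

lemma trap_rise {a L R x : ℝ} (hR : 0 < R) (hL : 2 * R ≤ L) (h1 : a ≤ x) (h2 : x ≤ a + R) :
    trap a L R x = (x - a) / R := by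
  have e1 : 0 ≤ (x - a) / R := div_nonneg (by linarith) hR.le
  have e2 : (x - a) / R ≤ 1 := by rw [div_le_one hR]; linarith
  have e3 : (x - a) / R ≤ (a + L - x) / R := div_le_div_of_nonneg_right (by linarith) hR.le
  unfold trap
  rw [min_eq_left e3, min_eq_right e2, max_eq_right e1]

lemma trap_fall {a L R x : ℝ} (hR : 0 < R) (hL : 2 * R ≤ L) (h1 : a + L - R ≤ x)
    (h2 : x ≤ a + L) : trap a L R x = (a + L - x) / R := by
  have e1 : 0 ≤ (a + L - x) / R := div_nonneg (by linarith) hR.le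
  have e2 : (a + L - x) / R ≤ 1 := by rw [div_le_one hR]; linarith
  have e3 : (a + L - x) / R ≤ (x - a) / R := div_le_div_of_nonneg_right (by linarith) hR.le
  unfold trap
  rw [min_eq_right e3, min_eq_right e2, max_eq_right e1]

lemma trap_affine {a L R : ℕ} (k : ℕ) {c : ℝ} (hR : 0 < R) (hL : 2 * R ≤ L)
    (hc : c ∈ Set.Icc (0 : ℝ) 1) :
    trap a L R (k + c) = (1 - c) * trap a L R k + c * trap a L R ((k + 1 : ℕ) : ℝ) := by
  obtain ⟨hc0, hc1⟩ := hc
  have hR' : (0 : ℝ) < R := by exact_mod_cast hR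
  have hL' : 2 * (R : ℝ) ≤ L := by exact_mod_cast hL
  have hk : ((k + 1 : ℕ) : ℝ) = k + 1 := by push_cast; ring
  rw [hk]
  rcases (by omega : k + 1 ≤ a ∨ a + L ≤ k ∨ (a ≤ k ∧ k + 1 ≤ a + R) ∨
      (a + R ≤ k ∧ k + 1 + R ≤ a + L) ∨ (a + L ≤ k + R ∧ k + 1 ≤ a + L)) with
    h | h | ⟨h, h'⟩ | ⟨h, h'⟩ | ⟨h, h'⟩
  · have h : (k : ℝ) + 1 ≤ a := by exact_mod_cast h
    rw [trap_eq_zero hR' (Or.inl (by linarith)), trap_eq_zero hR' (Or.inl (by linarith)),
      trap_eq_zero hR' (Or.inl (by linarith))]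
    ring
  · have h : (a : ℝ) + L ≤ k := by exact_mod_cast h
    rw [trap_eq_zero hR' (Or.inr (by linarith)), trap_eq_zero hR' (Or.inr (by linarith)),
      trap_eq_zero hR' (Or.inr (by linarith))]
    ring
  · have h : (a : ℝ) ≤ k := by exact_mod_cast h
    have h' : (k : ℝ) + 1 ≤ a + R := by exact_mod_cast h'
    rw [trap_rise hR' hL' (by linarith) (by linarith), trap_rise hR' hL' (by linarith) (by linarith),
      trap_rise hR' hL' (by linarith) (by linarith)]
    ring
  · have h : (a : ℝ) + R ≤ k := by exact_mod_cast h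
    have h' : (k : ℝ) + 1 + R ≤ a + L := by exact_mod_cast h'
    rw [trap_eq_one hR' (by linarith) (by linarith), trap_eq_one hR' (by linarith) (by linarith),
      trap_eq_one hR' (by linarith) (by linarith)]
    ring
  · have h : (a : ℝ) + L ≤ k + R := by exact_mod_cast h
    have h' : (k : ℝ) + 1 ≤ a + L := by exact_mod_cast h'
    rw [trap_fall hR' hL' (by linarith) (by linarith), trap_fall hR' hL' (by linarith) (by linarith),
      trap_fall hR' hL' (by linarith) (by linarith)]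
    ring

lemma tau0_affine (h : Big m) (k : ℕ) {c : ℝ} (hc : c ∈ Set.Icc (0 : ℝ) 1) :
    tau0 m (k + c) = (1 - c) * tau0 m k + c * tau0 m ((k + 1 : ℕ) : ℝ) := by
  simpa [tau0] using trap_affine (a := 0) (L := width m) k (r0_pos h) (by unfold width; omega) hc

lemma tauRow_affine (h : Big m) (k : ℕ) {c : ℝ} (hc : c ∈ Set.Icc (0 : ℝ) 1) :
    tauRow m (k + c) = (1 - c) * tauRow m k + c * tauRow m ((k + 1 : ℕ) : ℝ) :=
  trap_affine (a := r0 m) (L := groundLen m) k (r2_pos h) (by unfold groundLen; omega) hc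

lemma tauS_affine (h : Big m) (s : Sheet m) (k : ℕ) {c : ℝ} (hc : c ∈ Set.Icc (0 : ℝ) 1) :
    tauS s (k + c) = (1 - c) * tauS s k + c * tauS s ((k + 1 : ℕ) : ℝ) :=
  trap_affine (a := slotStart s) (L := slotLen m) k (r1_pos h) (by unfold slotLen; omega) hc

lemma wireZ_affine (h : Big m) (cell : Bool) (w : Wire m) (k : ℕ) {c : ℝ}
    (hc : c ∈ Set.Icc (0 : ℝ) 1) :
    wireZ cell w (k + c) = (1 - c) * wireZ cell w k + c * wireZ cell w ((k + 1 : ℕ) : ℝ) := by
  rcases w with ⟨s, i⟩ | j | _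
  · simp only [wireZ]; rw [tau0_affine h k hc]; ring
  · simp only [wireZ]; rw [tau0_affine h k hc]; ring
  · cases cell
    · simp only [wireZ, Bool.false_eq_true, if_false]; rw [tau0_affine h k hc]; ring
    · simp only [wireZ, if_true]; ring

lemma wireL_affine (h : Big m) (w : Wire m) (k : ℕ) {c : ℝ} (hc : c ∈ Set.Icc (0 : ℝ) 1) :
    wireL w (k + c) = (1 - c) • wireL w k + c • wireL w ((k + 1 : ℕ) : ℝ) := by
  rcases w with ⟨_ | j, i⟩ | j | _
  · simp [wireL]
  · simp only [wireL]; rw [tauS_affine h _ k hc]; module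
  · simp only [wireL]; rw [tauRow_affine h k hc]; module
  · simp [wireL]

lemma wirePt_affine (h : Big m) (A : ℝ) (cell : Bool) (w : Wire m) (k : ℕ) {c : ℝ}
    (hc : c ∈ Set.Icc (0 : ℝ) 1) :
    wirePt A cell w (k + c) =
      (1 - c) • wirePt A cell w k + c • wirePt A cell w ((k + 1 : ℕ) : ℝ) := by
  unfold wirePt
  rw [wireZ_affine h cell w k hc, wireL_affine h w k hc, Nat.cast_add, Nat.cast_one]
  module

lemma wirePt_mem_skel (h : Big m) {A : ℝ} (hA : A ≠ 0) (cell : Bool) (w : Wire m) (x : ℝ) :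
    wirePt A cell w x ∈ skel m A := by
  refine ⟨A * x, wireZ cell w x, ?_⟩
  have e : A * x / A = x := by field_simp
  rcases w with ⟨_ | j, i⟩ | j | _
  · exact Or.inl (by simp [wirePt, wireL])
  · refine Or.inr (Or.inl ⟨j, ?_⟩)
    rw [e]
    simp only [wirePt, wireL, wireZ]
    rcases eq_or_ne (tauS (some j) x) 0 with h0 | h0
    · simp [h0]
    · rw [tauS_pos_tau0 h h0, mul_one]
  · refine Or.inr (Or.inr ⟨j, ?_, ?_⟩) <;> rw [e] <;> simp [wirePt, wireL, wireZ]
  · exact Or.inl (by simp [wirePt, wireL])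

theorem pieceSkel_ok : PieceSkel := fun _ _ cell w k _ h hA _ hc =>
  ⟨wirePt_affine h _ cell w k hc, wirePt_mem_skel h (by linarith) cell w _⟩

/-! ### Covering of the skeleton -/

/-- the label part of a point of each of the three layers -/
def Layer (A : ℝ) (c : Fin 3) (t z : ℝ) (v : E m) : Prop :=
  if c = 0 then v = 0
  else if c = 1 then
    ∃ j : Fin m, tauS (some j) (t / A) ≠ 0 ∧ v = (bProf m z * tauS (some j) (t / A)) • eL j
  else ∃ j : Fin m, z = rowIdx j * tau0 m (t / A) ∧ v = tauRow m (t / A) • eL j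

lemma skel_layer {A : ℝ} {x : E m} (hx : x ∈ skel m A) :
    ∃ c t z v, Layer A c t z v ∧ x = t • eT + z • eZ + v := by
  obtain ⟨t, z, hx | ⟨j, hx⟩ | ⟨j, hz, hx⟩⟩ := hx
  · exact ⟨0, t, z, 0, by simp [Layer], by simp [hx]⟩
  · by_cases h0 : tauS (some j) (t / A) = 0
    · exact ⟨0, t, z, 0, by simp [Layer], by simp [hx, h0]⟩
    · exact ⟨1, t, z, _, by simp only [Layer]; exact ⟨j, h0, rfl⟩, hx⟩
  · exact ⟨2, t, z, _, by simp only [Layer]; exact ⟨j, hz, rfl⟩, hx⟩

lemma Layer.inl_zero {A : ℝ} {c : Fin 3} {t z : ℝ} {v : E m} (h : Layer A c t z v) (i : Fin 2) :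
    v (Sum.inl i) = 0 := by
  unfold Layer at h
  split_ifs at h
  · simp [h]
  · obtain ⟨j, -, rfl⟩ := h; simp [eL]
  · obtain ⟨j, -, rfl⟩ := h; simp [eL]

lemma trap_lipschitz_scaled {a L R A : ℝ} (hR : 1 ≤ R) (hA : 1 ≤ A) (t t' : ℝ) :
    |trap a L R (t / A) - trap a L R (t' / A)| ≤ |t - t'| := by
  refine (trap_lipschitz (by linarith) _ _).trans ?_
  rw [← sub_div, abs_div, abs_of_pos (by linarith : (0 : ℝ) < A), div_div]
  exact div_le_self (abs_nonneg _) (one_le_mul_of_one_le_of_one_le hA hR)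

lemma norm_label_sub_le (a b : ℝ) (i j : Fin m) : ‖a • eL i - b • eL j‖ ≤ |a| + |b| := by
  refine (norm_sub_le _ _).trans ?_
  simp [norm_smul]

lemma layer_close (h : Big m) {A : ℝ} (hA : 1 ≤ A) {c : Fin 3} {t z t' z' : ℝ} {v v' : E m}
    (hv : Layer A c t z v) (hv' : Layer A c t' z' v') :
    ‖v - v'‖ ≤ 2 * (|t - t'| + |z - z'|) := by
  have ht := abs_nonneg (t - t')
  have hz := abs_nonneg (z - z')
  have h1R : (1 : ℝ) ≤ r1 m := by exact_mod_cast r1_pos h
  have h2R : (1 : ℝ) ≤ r2 m := by exact_mod_cast r2_pos h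
  have lipS : ∀ s : Sheet m, |tauS s (t / A) - tauS s (t' / A)| ≤ |t - t'| := fun s =>
    trap_lipschitz_scaled h1R hA t t'
  have lipR : |tauRow m (t / A) - tauRow m (t' / A)| ≤ |t - t'| :=
    trap_lipschitz_scaled h2R hA t t'
  unfold Layer at hv hv'
  split_ifs at hv hv' with hc0 hc1
  · subst hv hv'
    rw [sub_self, norm_zero]
    linarith
  · obtain ⟨j, hj, rfl⟩ := hv
    obtain ⟨j', hj', rfl⟩ := hv'
    set a := tauS (some j) (t / A) with ha
    set a' := tauS (some j') (t' / A) with ha'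
    have ha0 : 0 ≤ a := trap_nonneg _ _ _ _
    have ha0' : 0 ≤ a' := trap_nonneg _ _ _ _
    have hb := bProf_nonneg m z
    have hb' := bProf_nonneg m z'
    rcases eq_or_ne j j' with rfl | hne
    · have e1 := bProf_lipschitz h z z'
      have e2 := lipS (some j)
      rw [← sub_smul, norm_smul, norm_eL, mul_one, Real.norm_eq_abs,
        show bProf m z * a - bProf m z' * a' =
          (bProf m z - bProf m z') * a + bProf m z' * (a - a') by ring]
      refine (abs_add_le _ _).trans ?_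
      rw [abs_mul, abs_mul, abs_of_nonneg ha0, abs_of_nonneg hb']
      have : |bProf m z - bProf m z'| * a ≤ |bProf m z - bProf m z'| :=
        mul_le_of_le_one_right (abs_nonneg _) (trap_le_one _ _ _ _)
      have : bProf m z' * |a - a'| ≤ |a - a'| :=
        mul_le_of_le_one_left (abs_nonneg _) (bProf_le_one _ _)
      linarith
    · have hne' : (some j : Sheet m) ≠ some j' := fun e => hne (Option.some.inj e)
      have e1 : tauS (some j) (t' / A) = 0 := tauS_other h hne'.symm hj'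
      have e2 : tauS (some j') (t / A) = 0 := tauS_other h hne' hj
      have f1 := lipS (some j)
      have f2 := lipS (some j')
      rw [e1, ← ha, sub_zero, abs_of_nonneg ha0] at f1
      rw [e2, ← ha', zero_sub, abs_neg, abs_of_nonneg ha0'] at f2
      refine (norm_label_sub_le _ _ _ _).trans ?_
      rw [abs_of_nonneg (mul_nonneg hb ha0), abs_of_nonneg (mul_nonneg hb' ha0')]
      have := mul_le_of_le_one_left ha0 (bProf_le_one m z)
      have := mul_le_of_le_one_left ha0' (bProf_le_one m z')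
      linarith
  · obtain ⟨j, rfl, rfl⟩ := hv
    obtain ⟨j', rfl, rfl⟩ := hv'
    set a := tauRow m (t / A) with ha
    set a' := tauRow m (t' / A) with ha'
    have ha0 : 0 ≤ a := trap_nonneg _ _ _ _
    have ha0' : 0 ≤ a' := trap_nonneg _ _ _ _
    rcases eq_or_ne j j' with rfl | hne
    · rw [← sub_smul, norm_smul, norm_eL, mul_one, Real.norm_eq_abs]
      linarith
    refine (norm_label_sub_le _ _ _ _).trans ?_
    rw [abs_of_nonneg ha0, abs_of_nonneg ha0']
    have := abs_le.1 lipR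
    rcases eq_or_ne a 0 with h0 | h0
    · linarith
    rcases eq_or_ne a' 0 with h0' | h0'
    · linarith
    have e1 : a ≤ 1 := trap_le_one _ _ _ _
    have e2 : a' ≤ 1 := trap_le_one _ _ _ _
    have hz1 : 1 ≤ |(rowIdx j : ℝ) * tau0 m (t / A) - rowIdx j' * tau0 m (t' / A)| := by
      rw [tauRow_pos_tau0 h h0, tauRow_pos_tau0 h h0', mul_one, mul_one]
      have hint : ((rowIdx j : ℤ) - rowIdx j') ≠ 0 := by
        have := Fin.val_ne_of_ne hne
        unfold rowIdx; omega
      exact_mod_cast Int.one_le_abs hint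
    linarith

theorem skelCovering_ok : ∃ K, SkelCovering K := by
  refine ⟨Fintype.card (Fin 3 × Fin 121 × Fin 121), fun m A hb hA p r hr => ?_⟩
  set e := (Fintype.equivFin (Fin 3 × Fin 121 × Fin 121)).symm with he
  let lo : Fin 2 → ℕ → ℝ := fun i a => p (Sum.inl i) - r + a * (r / 60)
  let cell : Fin 3 × Fin 121 × Fin 121 → Set (E m) := fun q =>
    {x | ∃ t z v, Layer A q.1 t z v ∧ x = t • eT + z • eZ + v ∧
      t ∈ Set.Icc (lo 0 q.2.1) (lo 0 q.2.1 + r / 60) ∧
      z ∈ Set.Icc (lo 1 q.2.2) (lo 1 q.2.2 + r / 60)}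
  refine ⟨fun i => cell (e i), ?_, ?_⟩
  · rintro x ⟨hx, hxp⟩
    obtain ⟨c, t, z, v, hv, rfl⟩ := skel_layer hx
    rw [Metric.mem_closedBall, dist_eq_norm] at hxp
    have pick : ∀ (i : Fin 2) (y : ℝ), (t • eT + z • eZ + v : E m) (Sum.inl i) = y →
        ∃ a : Fin 121, y ∈ Set.Icc (lo i a) (lo i a + r / 60) := by
      intro i y hy
      have h1 := (abs_apply_le_norm (t • eT + z • eZ + v - p) (Sum.inl i)).trans hxp
      rw [PiLp.sub_apply, hy, abs_le] at h1
      set w := (y - (p (Sum.inl i) - r)) / (r / 60) with hw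
      have hw0 : 0 ≤ w := div_nonneg (by linarith) (by positivity)
      have hw1 : w ≤ 120 := by rw [hw, div_le_iff₀ (by positivity)]; linarith
      have hfl : ⌊w⌋₊ < 121 :=
        Nat.lt_succ_of_le (Nat.floor_le_of_le (by exact_mod_cast hw1))
      have e1 := Nat.floor_le hw0
      have e2 := Nat.lt_floor_add_one w
      have hr' : 0 < r / 60 := by positivity
      have ew : w * (r / 60) = y - (p (Sum.inl i) - r) := div_mul_cancel₀ _ hr'.ne'
      have f1 := mul_le_mul_of_nonneg_right e1 hr'.le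
      have f2 := mul_lt_mul_of_pos_right e2 hr'
      refine ⟨⟨_, hfl⟩, ?_, ?_⟩ <;> simp only [lo] <;> linarith
    obtain ⟨a, ha⟩ := pick 0 t (by simp [hv.inl_zero])
    obtain ⟨b, hb'⟩ := pick 1 z (by simp [hv.inl_zero])
    exact Set.mem_iUnion.2 ⟨e.symm (c, a, b),
      by simp only [Equiv.apply_symm_apply]; exact ⟨t, z, v, hv, rfl, ha, hb'⟩⟩
  · rintro i x ⟨t, z, v, hv, rfl, ht, hz⟩ y ⟨t', z', v', hv', rfl, ht', hz'⟩
    rw [dist_eq_norm,
      show t • eT + z • eZ + v - (t' • eT + z' • eZ + v') =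
        (t - t') • (eT : E m) + (z - z') • eZ + (v - v') by module]
    have e1 : |t - t'| ≤ r / 60 := abs_le.2 ⟨by linarith [ht.1, ht'.2], by linarith [ht.2, ht'.1]⟩
    have e2 : |z - z'| ≤ r / 60 := abs_le.2 ⟨by linarith [hz.1, hz'.2], by linarith [hz.2, hz'.1]⟩
    refine (norm_add₃_le).trans ?_
    simp only [norm_smul, norm_eT, norm_eZ, mul_one, Real.norm_eq_abs]
    linarith [layer_close hb hA hv hv']

/-! ### The grid -/

/-- an integer multiple of `1 / D` -/
def IsMult (D : ℕ) (x : ℝ) : Prop := ∃ z : ℤ, x * D = z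

lemma IsMult.mono {D D' : ℕ} {x : ℝ} (h : IsMult D x) (hd : D ∣ D') : IsMult D' x := by
  obtain ⟨z, hz⟩ := h
  obtain ⟨q, rfl⟩ := hd
  exact ⟨z * q, by push_cast; rw [← hz]; ring⟩

lemma IsMult.mul {D D' : ℕ} {x y : ℝ} (h : IsMult D x) (h' : IsMult D' y) :
    IsMult (D * D') (x * y) := by
  obtain ⟨z, hz⟩ := h
  obtain ⟨z', hz'⟩ := h'
  exact ⟨z * z', by push_cast; rw [← hz, ← hz']; ring⟩

lemma IsMult.sub {D : ℕ} {x y : ℝ} (h : IsMult D x) (h' : IsMult D y) : IsMult D (x - y) := by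
  obtain ⟨z, hz⟩ := h
  obtain ⟨z', hz'⟩ := h'
  exact ⟨z - z', by push_cast; rw [← hz, ← hz']; ring⟩

lemma IsMult.max {D : ℕ} {x y : ℝ} (h : IsMult D x) (h' : IsMult D y) : IsMult D (max x y) := by
  rcases max_choice x y with e | e <;> rw [e] <;> assumption

lemma IsMult.min {D : ℕ} {x y : ℝ} (h : IsMult D x) (h' : IsMult D y) : IsMult D (min x y) := by
  rcases min_choice x y with e | e <;> rw [e] <;> assumption

lemma isMult_natCast (D n : ℕ) : IsMult D (n : ℝ) := ⟨n * D, by push_cast; ring⟩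

lemma isMult_div {D : ℕ} (hD : 0 < D) (z : ℤ) : IsMult D ((z : ℝ) / D) :=
  ⟨z, div_mul_cancel₀ _ (by exact_mod_cast hD.ne')⟩

lemma IsMult.one_div_le_abs {D : ℕ} {x : ℝ} (hD : 0 < D) (h : IsMult D x) (hx : x ≠ 0) :
    1 / (D : ℝ) ≤ |x| := by
  obtain ⟨z, hz⟩ := h
  have hD' : (0 : ℝ) < D := by exact_mod_cast hD
  have hz0 : z ≠ 0 := by
    rintro rfl
    rw [Int.cast_zero] at hz
    exact hx ((mul_eq_zero.1 hz).resolve_right hD'.ne')
  rw [div_le_iff₀ hD', ← abs_of_pos hD', ← abs_mul, hz]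
  exact_mod_cast Int.one_le_abs hz0

lemma isMult_trap (a L : ℕ) {R : ℕ} (hR : 0 < R) (k : ℕ) : IsMult R (trap a L R k) := by
  refine (by simpa using isMult_natCast R 0 : IsMult R 0).max
    ((by simpa using isMult_natCast R 1 : IsMult R 1).min (IsMult.min ?_ ?_))
  · simpa using isMult_div hR ((k : ℤ) - a)
  · simpa using isMult_div hR ((a : ℤ) + L - k)

lemma isMult_bProf (h : Big m) (i : ℕ) : IsMult (bN m) (bProf m i) := by
  have key : ∀ z : ℤ, IsMult (bN m) (bRise m z) := fun z => by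
    refine IsMult.min ?_ ?_
    · simpa using isMult_div (bN_pos h) (z * hN m)
    · simpa using isMult_div (bN_pos h) ((hN m : ℤ) + z - 1)
  refine (by simpa using isMult_natCast (bN m) 0 : IsMult (bN m) 0).max
    ((by simpa using isMult_natCast (bN m) 1 : IsMult (bN m) 1).min (IsMult.min ?_ ?_))
  · simpa using key i
  · simpa using key ((nN m : ℤ) - i)

lemma isMult_wireZ (h : Big m) (cell : Bool) (w : Wire m) (k : ℕ) :
    IsMult (gridDen m) (wireZ cell w k) := by
  have h0 : IsMult (r0 m) (tau0 m k) := by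
    simpa [tau0] using isMult_trap 0 (width m) (r0_pos h) k
  have key : ∀ n : ℕ, IsMult (gridDen m) ((n : ℝ) * tau0 m k) := fun n => by
    refine ((isMult_natCast 1 n).mul h0).mono ?_
    exact ⟨bN m * r1 m * r2 m, by unfold gridDen; ring⟩
  rcases w with ⟨s, i⟩ | j | _
  · exact key _
  · exact key _
  · cases cell
    · simpa [wireZ] using key (nN m)
    · simpa [wireZ] using isMult_natCast (gridDen m) (nN m)

lemma isMult_wireL (h : Big m) (w : Wire m) (k : ℕ) (p : Fin m) :
    IsMult (gridDen m) (wireL w k (Sum.inr p)) := by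
  have zero : IsMult (gridDen m) 0 := by simpa using isMult_natCast (gridDen m) 0
  rcases w with ⟨_ | j, i⟩ | j | _
  · simpa [wireL] using zero
  · simp only [wireL, PiLp.smul_apply, eL_l, smul_eq_mul]
    split
    · rw [mul_one]
      refine ((isMult_bProf h i).mul (isMult_trap _ _ (r1_pos h) k)).mono ?_
      exact ⟨r0 m * r2 m, by unfold gridDen; ring⟩
    · simpa using zero
  · simp only [wireL, PiLp.smul_apply, eL_l, smul_eq_mul]
    split
    · rw [mul_one]
      refine (isMult_trap _ _ (r2_pos h) k).mono ?_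
      exact ⟨bN m * r0 m * r1 m, by unfold gridDen; ring⟩
    · simpa using zero
  · simpa [wireL] using zero

/-! ### Separation of pieces -/

lemma wireZ_cases (cell : Bool) (w : Wire m) :
    (∃ c : ℝ, c ≤ nN m ∧ 0 ≤ c ∧ ∀ x, wireZ cell w x = c * tau0 m x) ∨
      ∀ x, wireZ cell w x = nN m := by
  rcases w with ⟨s, i⟩ | j | _
  · refine Or.inl ⟨i.val, ?_, Nat.cast_nonneg _, fun x => rfl⟩
    exact_mod_cast Nat.lt_succ_iff.1 i.isLt
  · refine Or.inl ⟨rowIdx j, ?_, Nat.cast_nonneg _, fun x => rfl⟩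
    have := j.isLt
    exact_mod_cast (by unfold rowIdx nN; omega : rowIdx j ≤ nN m)
  · cases cell
    · exact Or.inl ⟨nN m, le_rfl, Nat.cast_nonneg _, fun x => by simp [wireZ]⟩
    · exact Or.inr fun x => by simp [wireZ]

lemma wireL_cases (w : Wire m) (p : Fin m) :
    (∃ b : ℝ, b ≤ 1 ∧ 0 ≤ b ∧ ∀ x, wireL w x (Sum.inr p) = b * tauS (some p) x) ∨
      ∀ x, wireL w x (Sum.inr p) = tauRow m x := by
  rcases w with ⟨_ | j, i⟩ | j | _
  · exact Or.inl ⟨0, zero_le_one, le_rfl, fun x => by simp [wireL]⟩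
  · rcases eq_or_ne p j with rfl | hne
    · exact Or.inl ⟨bProf m i.val, bProf_le_one _ _, bProf_nonneg _ _,
        fun x => by simp [wireL, eL_l]⟩
    · exact Or.inl ⟨0, zero_le_one, le_rfl, fun x => by simp [wireL, eL_l, hne]⟩
  · rcases eq_or_ne p j with rfl | hne
    · exact Or.inr fun x => by simp [wireL, eL_l]
    · exact Or.inl ⟨0, zero_le_one, le_rfl, fun x => by simp [wireL, eL_l, hne]⟩
  · exact Or.inl ⟨0, zero_le_one, le_rfl, fun x => by simp [wireL]⟩

lemma wirePt_ordered (h : Big m) (A : ℝ) (cell : Bool) (w w' : Wire m) (q : Fin 2 ⊕ Fin m) :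
    (∀ x, wirePt A cell w x q ≤ wirePt A cell w' x q) ∨
      ∀ x, wirePt A cell w' x q ≤ wirePt A cell w x q := by
  rcases q with q | p
  · fin_cases q
    · exact Or.inl fun x => le_of_eq ((wirePt_t A cell w x).trans (wirePt_t A cell w' x).symm)
    · simp only [Fin.mk_one, wirePt_z]
      have up : ∀ c : ℝ, c ≤ nN m → 0 ≤ c → ∀ x, c * tau0 m x ≤ nN m := fun c hc hc0 x =>
        (mul_le_of_le_one_right hc0 (trap_le_one _ _ _ _)).trans hc
      rcases wireZ_cases cell w with ⟨c, hc, hc0, e⟩ | e <;>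
        rcases wireZ_cases cell w' with ⟨c', hc', hc0', e'⟩ | e' <;> simp only [e, e']
      · rcases le_total c c' with l | l
        · exact Or.inl fun x => mul_le_mul_of_nonneg_right l (trap_nonneg _ _ _ _)
        · exact Or.inr fun x => mul_le_mul_of_nonneg_right l (trap_nonneg _ _ _ _)
      · exact Or.inl (up c hc hc0)
      · exact Or.inr (up c' hc' hc0')
      · exact Or.inl fun x => le_rfl
  · simp only [wirePt_l]
    have up : ∀ b : ℝ, b ≤ 1 → ∀ x, b * tauS (some p) x ≤ tauRow m x := fun b hb x =>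
      (mul_le_of_le_one_left (trap_nonneg _ _ _ _) hb).trans (tauS_le_tauRow h _ x)
    rcases wireL_cases w p with ⟨b, hb, hb0, e⟩ | e <;>
      rcases wireL_cases w' p with ⟨b', hb', hb0', e'⟩ | e' <;> simp only [e, e']
    · rcases le_total b b' with l | l
      · exact Or.inl fun x => mul_le_mul_of_nonneg_right l (trap_nonneg _ _ _ _)
      · exact Or.inr fun x => mul_le_mul_of_nonneg_right l (trap_nonneg _ _ _ _)
    · exact Or.inl (up b hb)
    · exact Or.inr (up b' hb')
    · exact Or.inl fun x => le_rfl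

lemma pieceOf_eq_of {A : ℝ} {cell : Bool} {w w' : Wire m} {k : ℕ}
    (h0 : wirePt A cell w k = wirePt A cell w' k)
    (h1 : wirePt A cell w ((k + 1 : ℕ) : ℝ) = wirePt A cell w' ((k + 1 : ℕ) : ℝ)) :
    pieceOf A cell w k = pieceOf A cell w' k := by
  simp only [pieceOf, h0, h1]

lemma sep_convex {G c a b : ℝ} (hc : c ∈ Set.Icc (0 : ℝ) 1) (ha : 0 ≤ a) (hb : 0 ≤ b)
    (hG : 1 / G ≤ a ∨ 1 / G ≤ b) (hG0 : 0 < G) :
    min c (1 - c) / G ≤ (1 - c) * a + c * b := by
  have hp : 0 ≤ 1 / G := by positivity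
  have e1 := mul_le_mul_of_nonneg_right (min_le_left c (1 - c)) hp
  have e2 := mul_le_mul_of_nonneg_right (min_le_right c (1 - c)) hp
  have e3 := mul_nonneg (sub_nonneg.2 hc.2) ha
  have e4 := mul_nonneg hc.1 hb
  rw [div_eq_mul_one_div]
  rcases hG with h | h
  · have := mul_le_mul_of_nonneg_left h (sub_nonneg.2 hc.2)
    linarith
  · have := mul_le_mul_of_nonneg_left h hc.1
    linarith

theorem pieceSep_ok : PieceSep := by
  intro m A cell w w' k c h hA hk hc hne
  obtain ⟨q, hq⟩ : ∃ q, wirePt A cell w k q ≠ wirePt A cell w' k q ∨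
      wirePt A cell w ((k + 1 : ℕ) : ℝ) q ≠ wirePt A cell w' ((k + 1 : ℕ) : ℝ) q := by
    by_contra hcon
    push Not at hcon
    exact hne (pieceOf_eq_of (PiLp.ext fun q => (hcon q).1) (PiLp.ext fun q => (hcon q).2))
  refine le_trans ?_ (abs_apply_le_norm _ q)
  rw [PiLp.sub_apply, wirePt_affine h A cell w k hc, wirePt_affine h A cell w' k hc]
  simp only [PiLp.add_apply, PiLp.smul_apply, smul_eq_mul]
  have hG := gridDen_pos h
  have hG' : (0 : ℝ) < gridDen m := by exact_mod_cast hG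
  have mult : ∀ n : ℕ, wirePt A cell w n q ≠ wirePt A cell w' n q →
      1 / (gridDen m : ℝ) ≤ |wirePt A cell w n q - wirePt A cell w' n q| := by
    intro n hn
    refine IsMult.one_div_le_abs hG ?_ (sub_ne_zero.2 hn)
    rcases q with q | p
    · fin_cases q
      · simp only [Fin.zero_eta, wirePt_t, sub_self]
        simpa using isMult_natCast (gridDen m) 0
      · simp only [Fin.mk_one, wirePt_z]
        exact (isMult_wireZ h cell w n).sub (isMult_wireZ h cell w' n)
    · simp only [wirePt_l]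
      exact (isMult_wireL h w n p).sub (isMult_wireL h w' n p)
  have hq' := hq.imp (mult k) (mult (k + 1))
  rcases wirePt_ordered h A cell w w' q with o | o
  · have o1 := o k
    have o2 := o ((k + 1 : ℕ) : ℝ)
    rw [abs_of_nonpos (sub_nonpos.2 o1), abs_of_nonpos (sub_nonpos.2 o2), neg_sub, neg_sub] at hq'
    rw [abs_sub_comm]
    refine le_trans ?_ (le_abs_self _)
    linarith [sep_convex hc (sub_nonneg.2 o1) (sub_nonneg.2 o2) hq' hG']
  · have o1 := o k
    have o2 := o ((k + 1 : ℕ) : ℝ)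
    rw [abs_of_nonneg (sub_nonneg.2 o1), abs_of_nonneg (sub_nonneg.2 o2)] at hq'
    refine le_trans ?_ (le_abs_self _)
    linarith [sep_convex hc (sub_nonneg.2 o1) (sub_nonneg.2 o2) hq' hG']

/-! ### Windows -/

lemma bRise_ge (_h : Big m) {z : ℝ} (hz : 1 ≤ z) : (hN m : ℝ) / bN m ≤ bRise m z := by
  have hB : (0 : ℝ) ≤ bN m := Nat.cast_nonneg _
  refine le_min ?_ ?_ <;> refine div_le_div_of_nonneg_right ?_ hB
  · exact le_mul_of_one_le_left (Nat.cast_nonneg _) hz
  · linarith

lemma bProf_ge (h : Big m) {i : ℕ} (h1 : 1 ≤ i) (h2 : i < nN m) :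
    1 / (m : ℝ) ^ 2 ≤ bProf m i := by
  have hm : (m : ℝ) ≠ 0 := by exact_mod_cast h.pos.ne'
  have e : 1 / (m : ℝ) ^ 2 = hN m / bN m := by simp only [hN, bN]; push_cast; field_simp
  have h1' : (1 : ℝ) ≤ i := by exact_mod_cast h1
  have h2' : (i : ℝ) + 1 ≤ nN m := by exact_mod_cast h2
  have hB : (0 : ℝ) < bN m := by exact_mod_cast bN_pos h
  have hle : (hN m : ℝ) / bN m ≤ 1 := by
    rw [div_le_one hB]; exact_mod_cast hN_le_bN h
  rw [e]
  exact le_max_of_le_right (le_min hle (le_min (bRise_ge h h1') (bRise_ge h (by linarith))))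

lemma window_wire (h : Big m) (A : ℝ) (cell : Bool) (s : Sheet m) (i : Fin (nN m)) (w : Wire m) :
    (∃ l, w = .row l) ∨ (∃ i', w = .lane s i') ∨
      ∃ i', ∀ c ∈ Set.Icc (0 : ℝ) 1, wirePt A cell w (winStart s i + c) =
        wirePt A cell (.lane none i') (winStart s i + c) := by
  rcases w with ⟨s', i'⟩ | l | _
  · rcases eq_or_ne s s' with rfl | hne
    · exact Or.inr (Or.inl ⟨i', rfl⟩)
    · refine Or.inr (Or.inr ⟨i', fun c hc => ?_⟩)
      obtain ⟨-, h1, -⟩ := window_profiles h s i hc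
      have h0 : tauS s' (winStart s i + c) = 0 := tauS_other h hne (by rw [h1]; norm_num)
      rcases s' with _ | j
      · rfl
      · simp [wirePt, wireZ, wireL, h0]
  · exact Or.inl ⟨l, rfl⟩
  · refine Or.inr (Or.inr ⟨⟨nN m, Nat.lt_succ_self _⟩, fun c hc => ?_⟩)
    obtain ⟨h0, -, -⟩ := window_profiles h s i hc
    cases cell <;> simp [wirePt, wireZ, wireL, h0]

lemma pieceOf_eq_of_window {A : ℝ} {cell : Bool} {w w' : Wire m} {k : ℕ}
    (h : ∀ c ∈ Set.Icc (0 : ℝ) 1, wirePt A cell w (k + c) = wirePt A cell w' (k + c)) :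
    pieceOf A cell w k = pieceOf A cell w' k := by
  refine pieceOf_eq_of ?_ ?_
  · simpa using h 0 ⟨le_rfl, zero_le_one⟩
  · simpa using h 1 ⟨zero_le_one, le_rfl⟩

theorem stripSep_ok : StripSep := by
  intro m A cell s i w c d h hA hc hd hnot
  obtain ⟨hd0, hd1⟩ := hd
  set X : E m := wirePt A cell w (winStart s i + c) -
    ((1 - d) • wirePt A cell (.lane s i.castSucc) (winStart s i + c) +
      d • wirePt A cell (.lane s i.succ) (winStart s i + c)) with hX
  have small : 1 / (2 * (m : ℝ) ^ 2) ≤ 1 := by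
    have : (100 : ℝ) ≤ m := by exact_mod_cast h
    rw [div_le_one (by positivity)]
    nlinarith
  obtain ⟨p0, p1, p2⟩ : tau0 m ((winStart s i : ℝ) + c) = 1 ∧ tauS s ((winStart s i : ℝ) + c) = 1 ∧
      tauRow m ((winStart s i : ℝ) + c) = 1 := window_profiles h s i hc
  have notLane : ∀ i' : Fin (nN m + 1), (i'.val = i.val ∨ i'.val = i.val + 1) →
      pieceOf A cell w (winStart s i) ≠ pieceOf A cell (.lane s i') (winStart s i) := by
    rintro i' (e | e) heq
    · exact hnot ⟨s, i, Or.inl (by rw [heq, show i' = i.castSucc from Fin.ext e])⟩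
    · exact hnot ⟨s, i, Or.inr (by rw [heq, show i' = i.succ from Fin.ext e])⟩
  -- a wire at another height is far
  have far : ∀ n : ℕ, wireZ cell w (winStart s i + c) = n → n ≠ i.val → n ≠ i.val + 1 →
      1 / (2 * (m : ℝ) ^ 2) ≤ ‖X‖ := by
    intro n hn h1 h2
    refine small.trans (le_trans ?_ (abs_apply_le_norm X (Sum.inl 1)))
    have e : X (Sum.inl 1) = n - (i.val + d) := by
      rw [hX]
      simp only [PiLp.sub_apply, PiLp.add_apply, PiLp.smul_apply, smul_eq_mul, wirePt_z, hn]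
      simp only [wireZ, Fin.val_castSucc, Fin.val_succ, Nat.cast_add, Nat.cast_one, p0, mul_one]
      ring
    rw [e]
    rcases (by omega : n + 1 ≤ i.val ∨ i.val + 2 ≤ n) with l | l
    · have : (n : ℝ) + 1 ≤ i.val := by exact_mod_cast l
      exact le_trans (by linarith) (neg_le_abs _)
    · have : (i.val : ℝ) + 2 ≤ n := by exact_mod_cast l
      exact le_trans (by linarith) (le_abs_self _)
  rcases window_wire h A cell s i w with ⟨l, rfl⟩ | ⟨i', rfl⟩ | ⟨i', hflat⟩
  · by_cases hn : rowIdx l = i.val ∨ rowIdx l = i.val + 1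
    swap
    · push Not at hn
      exact far (rowIdx l) (by simp [wireZ, p0]) hn.1 hn.2
    by_cases hs : s = some l
    · subst hs
      have hlt : rowIdx l < nN m + 1 := by
        rcases hn with e | e <;> omega
      refine absurd (pieceOf_eq_of_window fun c' hc' => ?_) (notLane ⟨rowIdx l, hlt⟩ hn)
      obtain ⟨q0, q1, q2⟩ := window_profiles h (some l) i hc'
      simp only [wirePt, wireZ, wireL, q0, q1, q2, bProf_rowIdx h, mul_one]
    refine small.trans (le_trans ?_ (abs_apply_le_norm X (Sum.inr l)))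
    have e : X (Sum.inr l) = 1 := by
      rw [hX]
      simp only [PiLp.sub_apply, PiLp.add_apply, PiLp.smul_apply, smul_eq_mul, wirePt_l]
      rcases s with _ | j
      · simp [wireL, eL_l, p2]
      · have : l ≠ j := fun e => hs (e ▸ rfl)
        simp [wireL, eL_l, p2, this]
    simp [e]
  · refine far i'.val (by simp [wireZ, p0]) ?_ ?_ <;> intro e <;>
      exact notLane i' (by simp [e]) rfl
  · have hw := hflat c hc
    by_cases hn : i'.val = i.val ∨ i'.val = i.val + 1
    swap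
    · push Not at hn
      refine far i'.val ?_ hn.1 hn.2
      rw [← wirePt_z A, hw, wirePt_z]
      simp [wireZ, p0]
    rcases s with _ | j
    · exact absurd (pieceOf_eq_of_window hflat) (notLane i' hn)
    by_cases hb : bProf m i'.val = 0
    · refine absurd (pieceOf_eq_of_window fun c' hc' => (hflat c' hc').trans ?_) (notLane i' hn)
      simp [wirePt, wireZ, wireL, hb]
    have hlo : 1 / (m : ℝ) ^ 2 ≤ bProf m i'.val := by
      refine bProf_ge h (Nat.pos_of_ne_zero fun e => hb ?_) ?_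
      · rw [e]; simpa using bProf_zero m
      · rcases Nat.lt_or_ge i'.val (nN m) with l | l
        · exact l
        · refine absurd ?_ hb
          rw [show i'.val = nN m by have := i'.isLt; omega]
          exact bProf_top m
    set b0 := bProf m (i.val : ℝ) with hb0
    set b1 := bProf m ((i.val + 1 : ℕ) : ℝ) with hb1
    have eZ' : X (Sum.inl 1) = i'.val - (i.val + d) := by
      rw [hX, hw]
      simp only [PiLp.sub_apply, PiLp.add_apply, PiLp.smul_apply, smul_eq_mul, wirePt_z]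
      simp only [wireZ, Fin.val_castSucc, Fin.val_succ, Nat.cast_add, Nat.cast_one, p0, mul_one]
      ring
    have eL' : X (Sum.inr j) = -((1 - d) * b0 + d * b1) := by
      rw [hX, hw]
      simp [wirePt_l, wireL, eL_l, p1, hb0, hb1]
    have b0n : 0 ≤ b0 := bProf_nonneg _ _
    have b1n : 0 ≤ b1 := bProf_nonneg _ _
    have Z := abs_apply_le_norm X (Sum.inl 1)
    have L := abs_apply_le_norm X (Sum.inr j)
    rw [eZ'] at Z
    rw [eL', abs_neg, abs_of_nonneg (by nlinarith)] at L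
    have half : 1 / (2 * (m : ℝ) ^ 2) = 1 / (m : ℝ) ^ 2 / 2 := by rw [div_div, mul_comm]
    rw [half]
    have hpos : (0 : ℝ) ≤ 1 / (m : ℝ) ^ 2 := by positivity
    have hsmall : 1 / (m : ℝ) ^ 2 ≤ 1 := hlo.trans (bProf_le_one _ _)
    rcases hn with e | e
    · rw [e] at hlo Z
      rw [← hb0] at hlo
      have := neg_le_abs ((i.val : ℝ) - (i.val + d))
      rcases le_total (1 / (m : ℝ) ^ 2 / 2) d with hd' | hd'
      · linarith
      · nlinarith [mul_nonneg hd0 b1n, mul_le_mul_of_nonneg_left hlo (sub_nonneg.2 hd1)]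
    · rw [e] at hlo Z
      rw [← hb1] at hlo
      rw [Nat.cast_add, Nat.cast_one] at Z
      have := le_abs_self ((i.val : ℝ) + 1 - (i.val + d))
      rcases le_total (1 / (m : ℝ) ^ 2 / 2) (1 - d) with hd' | hd'
      · linarith
      · nlinarith [mul_nonneg (sub_nonneg.2 hd1) b0n, mul_le_mul_of_nonneg_left hlo hd0]

end Vale.Agent.P208

end
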