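import Vale.Agent.P208.Embed.Tree
import Vale.Agent.P208.Embed.Seg
import Vale.Agent.P208.Rigid
import Vale.Agent.P208.Gain
import Vale.Agent.P208.Glue
import Vale.Agent.P208.Skeleton

/-!
Assembly of the disproof, apart from the covering of the segment sets.
-/

noncomputable section

namespace Vale.Agent.P208

theorem segFalse_ok : SegFalse := segFalse_of (treeFalse_of blockRigid_ok gadgetGain_ok)

theorem langPlaut_of_covering
    (h : PieceSkel → PieceSep → StripSep → ∀ K, SkelCovering K → SegCovering K) :
    LangPlautNegative := by
  obtain ⟨K, hK⟩ := skelCovering_ok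
  exact langPlaut_of (h pieceSkel_ok pieceSep_ok stripSep_ok K hK) segFalse_ok

end Vale.Agent.P208

end
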